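import Claimed.Agent.R314.SV.End

/-!
# Row 314, block C, package SV, file 3: generic calculus for `Index` and `Master`

Verbatim ports of the definition-independent lemmas of `R316/Base/SV/Master.lean` (so that the Kaehler files of row 316 are not imported):
`rsv_sqrt_jet` (2-jet of `√(l·𝓔)`), `rsv_le_of_hessian_neg`, `rsv_hessian_nonneg` (second order conditions at `0 ∈ P`).
-/

set_option autoImplicit false
set_option linter.unusedSectionVars false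
open scoped ContDiff Topology

namespace Claimed.Agent.R314

variable {P : Type} [NormedAddCommGroup P] [NormedSpace ℝ P] [FiniteDimensional ℝ P]

theorem rsv_deriv2_nonneg {φ : ℝ → ℝ} {s : ℝ} (hφ : ContDiffAt ℝ 2 φ s)
    (h : IsLocalMin φ s) : 0 ≤ deriv (deriv φ) s := by
  by_contra hneg
  push Not at hneg
  have hmax : IsLocalMax φ s :=
    isLocalMax_of_deriv_deriv_neg hneg h.deriv_eq_zero hφ.continuousAt
  have hconst : φ =ᶠ[𝓝 s] fun _ => φ s := by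
    filter_upwards [h, hmax] with x h1 h2
    exact le_antisymm h2 h1
  have h2 : deriv (deriv φ) s = 0 := by
    rw [hconst.deriv.deriv_eq]
    simp
  linarith

/-- one variable version of `rsv_sqrt_jet`. -/
theorem rsv_sqrt_jet1 {e : ℝ → ℝ} {l : ℝ} (hl : 0 < l) (he : ContDiffAt ℝ 2 e 0) (h0 : e 0 = l) :
    deriv (fun ε => Real.sqrt (l * e ε)) 0 = deriv e 0 / 2 ∧
    deriv (deriv fun ε => Real.sqrt (l * e ε)) 0 =
      deriv (deriv e) 0 / 2 - deriv e 0 ^ 2 / (4 * l) := by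
  have hpos : ∀ᶠ ε in 𝓝 (0 : ℝ), 0 < e ε :=
    he.continuousAt.eventually (lt_mem_nhds (by rw [h0]; exact hl))
  have hd : ∀ᶠ ε in 𝓝 (0 : ℝ), DifferentiableAt ℝ e ε :=
    (he.eventually (by simp)).mono fun _ h => h.differentiableAt (by norm_num)
  have key : ∀ ε, 0 < e ε → DifferentiableAt ℝ e ε →
      HasDerivAt (fun ε => Real.sqrt (l * e ε)) (l * deriv e ε / (2 * Real.sqrt (l * e ε))) ε :=
    fun ε h1 h2 => (h2.hasDerivAt.const_mul l).sqrt (mul_pos hl h1).ne'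
  have h1 : deriv (fun ε => Real.sqrt (l * e ε)) =ᶠ[𝓝 0]
      fun ε => l * deriv e ε / (2 * Real.sqrt (l * e ε)) := by
    filter_upwards [hpos, hd] with ε a1 a2
    exact (key ε a1 a2).deriv
  have hs : Real.sqrt (l * e 0) = l := by rw [h0, Real.sqrt_mul_self hl.le]
  have d2 : HasDerivAt (deriv e) (deriv (deriv e) 0) 0 :=
    ((R316.sv_contDiffAt_deriv he).differentiableAt (by norm_num)).hasDerivAt
  have k0 := key 0 hpos.self_of_nhds hd.self_of_nhds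
  have h2 := (d2.const_mul l).div (k0.const_mul 2) (by rw [hs]; positivity)
  constructor
  · have h3 := h1.self_of_nhds
    simp only at h3
    rw [h3, hs]
    field_simp
  · have h2' : deriv (fun ε => l * deriv e ε / (2 * Real.sqrt (l * e ε))) 0 = _ := h2.deriv
    rw [h1.deriv_eq, h2', hs]
    field_simp
    ring

theorem rsv_sqrt_jet {𝓔 : P → ℝ} {N : Set P} {l : ℝ} (hl : 0 < l) (hN : IsOpen N) (h0 : (0 : P) ∈ N)
    (h𝓔 : ContDiffOn ℝ ∞ 𝓔 N) (he : 𝓔 0 = l) :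
    (∃ N' : Set P, IsOpen N' ∧ (0 : P) ∈ N' ∧ N' ⊆ N ∧
      ContDiffOn ℝ ∞ (fun p => Real.sqrt (l * 𝓔 p)) N') ∧
    Real.sqrt (l * 𝓔 0) = l ∧
    (∀ p, fderiv ℝ (fun p => Real.sqrt (l * 𝓔 p)) 0 p = fderiv ℝ 𝓔 0 p / 2) ∧
    ∀ p, fderiv ℝ (fderiv ℝ fun p => Real.sqrt (l * 𝓔 p)) 0 p p =
      fderiv ℝ (fderiv ℝ 𝓔) 0 p p / 2 - fderiv ℝ 𝓔 0 p ^ 2 / (4 * l) := by
  have hop : IsOpen (N ∩ 𝓔 ⁻¹' Set.Ioi 0) := h𝓔.continuousOn.isOpen_inter_preimage hN isOpen_Ioi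
  have hmem : (0 : P) ∈ N ∩ 𝓔 ⁻¹' Set.Ioi 0 := ⟨h0, by
    show 0 < 𝓔 0
    rw [he]; exact hl⟩
  have hg : ContDiffOn ℝ ∞ (fun p => Real.sqrt (l * 𝓔 p)) (N ∩ 𝓔 ⁻¹' Set.Ioi 0) :=
    ((contDiffOn_const.mul (h𝓔.mono Set.inter_subset_left))).sqrt
      fun p hp => (mul_pos hl hp.2).ne'
  have g2 : ContDiffAt ℝ 2 (fun p => Real.sqrt (l * 𝓔 p)) 0 :=
    (hg.contDiffAt (hop.mem_nhds hmem)).of_le ENat.LEInfty.out
  have e2 : ContDiffAt ℝ 2 𝓔 0 := (h𝓔.contDiffAt (hN.mem_nhds h0)).of_le ENat.LEInfty.out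
  refine ⟨⟨_, hop, hmem, Set.inter_subset_left, hg⟩, by rw [he, Real.sqrt_mul_self hl.le],
    fun p => ?_, fun p => ?_⟩
  · obtain ⟨a1, a2, a3⟩ := R316.sv_line_jets e2 p
    obtain ⟨b1, b2, b3⟩ := R316.sv_line_jets g2 p
    rw [← b2, ← a2]
    exact (rsv_sqrt_jet1 hl a1 (by simpa using he)).1
  · obtain ⟨a1, a2, a3⟩ := R316.sv_line_jets e2 p
    obtain ⟨b1, b2, b3⟩ := R316.sv_line_jets g2 p
    rw [← b3, ← a2, ← a3]
    exact (rsv_sqrt_jet1 hl a1 (by simpa using he)).2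

set_option maxSynthPendingDepth 3 in
/-- second order sufficient condition for a local maximum. -/
theorem rsv_le_of_hessian_neg {f : P → ℝ} {N : Set P} (hN : IsOpen N) (h0 : (0 : P) ∈ N)
    (hf : ContDiffOn ℝ ∞ f N) (h1 : ∀ p, fderiv ℝ f 0 p = 0) {c : ℝ} (hc : 0 < c)
    (h2 : ∀ p, fderiv ℝ (fderiv ℝ f) 0 p p ≤ - c * ‖p‖ ^ 2) : ∀ᶠ p in 𝓝 (0 : P), f p ≤ f 0 := by
  have hf1 : ContDiffOn ℝ ∞ (fderiv ℝ f) N := hf.fderiv_of_isOpen hN (by simp)
  have hf2 : ContDiffOn ℝ ∞ (fderiv ℝ (fderiv ℝ f)) N := hf1.fderiv_of_isOpen hN (by simp)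
  have hcont : ContinuousAt (fderiv ℝ (fderiv ℝ f)) 0 := (hf2.contDiffAt (hN.mem_nhds h0)).continuousAt
  have hev : ∀ᶠ q in 𝓝 (0 : P), q ∈ N ∧
      ‖fderiv ℝ (fderiv ℝ f) q - fderiv ℝ (fderiv ℝ f) 0‖ < c := by
    have hn : ContinuousAt
        (fun q => ‖fderiv ℝ (fderiv ℝ f) q - fderiv ℝ (fderiv ℝ f) 0‖) 0 :=
      (hcont.sub continuousAt_const).norm
    have h3 := hn.eventually_lt (continuousAt_const (y := c)) (by simpa using hc)
    filter_upwards [hN.mem_nhds h0, h3] with q hq hq'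
    exact ⟨hq, hq'⟩
  obtain ⟨r, hr, hball⟩ := Metric.eventually_nhds_iff_ball.1 hev
  filter_upwards [Metric.ball_mem_nhds (0 : P) hr] with p hp
  have hseg : ∀ t ∈ Set.Icc (0 : ℝ) 1, t • p ∈ Metric.ball (0 : P) r := by
    intro t ht
    rw [mem_ball_zero_iff] at hp ⊢
    rw [norm_smul, Real.norm_eq_abs, abs_of_nonneg ht.1]
    calc t * ‖p‖ ≤ 1 * ‖p‖ := mul_le_mul_of_nonneg_right ht.2 (norm_nonneg _)
      _ < r := by rwa [one_mul]
  have hline : ∀ t : ℝ, HasDerivAt (fun t : ℝ => t • p) p t := fun t => by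
    simpa using (hasDerivAt_id t).smul_const p
  have d0 : ∀ t ∈ Set.Icc (0 : ℝ) 1, HasDerivAt (fun t : ℝ => f (t • p)) (fderiv ℝ f (t • p) p) t := by
    intro t ht
    have hd : DifferentiableAt ℝ f (t • p) :=
      (hf.contDiffAt (hN.mem_nhds (hball _ (hseg t ht)).1)).differentiableAt (by simp)
    exact hd.hasFDerivAt.comp_hasDerivAt t (hline t)
  have d1 : ∀ t ∈ Set.Icc (0 : ℝ) 1, HasDerivAt (fun t : ℝ => fderiv ℝ f (t • p) p)
      (fderiv ℝ (fderiv ℝ f) (t • p) p p) t := by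
    intro t ht
    have hd : DifferentiableAt ℝ (fderiv ℝ f) (t • p) :=
      (hf1.contDiffAt (hN.mem_nhds (hball _ (hseg t ht)).1)).differentiableAt (by simp)
    have h4 := hd.hasFDerivAt.comp_hasDerivAt t (hline t)
    have h5 := h4.clm_apply (hasDerivAt_const t p)
    simpa using h5
  have neg : ∀ t ∈ Set.Icc (0 : ℝ) 1, fderiv ℝ (fderiv ℝ f) (t • p) p p ≤ 0 := by
    intro t ht
    have b1 := (hball _ (hseg t ht)).2
    have b2 : (fderiv ℝ (fderiv ℝ f) (t • p) - fderiv ℝ (fderiv ℝ f) 0) p p ≤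
        ‖fderiv ℝ (fderiv ℝ f) (t • p) - fderiv ℝ (fderiv ℝ f) 0‖ * ‖p‖ * ‖p‖ :=
      (Real.le_norm_self _).trans (ContinuousLinearMap.le_opNorm₂ _ p p)
    have b3 : ‖fderiv ℝ (fderiv ℝ f) (t • p) - fderiv ℝ (fderiv ℝ f) 0‖ * ‖p‖ * ‖p‖ ≤
        c * ‖p‖ * ‖p‖ := by gcongr
    have b4 := h2 p
    simp only [sub_apply] at b2
    nlinarith
  have hint : interior (Set.Icc (0 : ℝ) 1) ⊆ Set.Icc (0 : ℝ) 1 := interior_subset
  have a1 : AntitoneOn (fun t : ℝ => fderiv ℝ f (t • p) p) (Set.Icc (0 : ℝ) 1) :=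
    antitoneOn_of_deriv_nonpos (convex_Icc 0 1)
      (fun t ht => (d1 t ht).continuousAt.continuousWithinAt)
      (fun t ht => (d1 t (hint ht)).differentiableAt.differentiableWithinAt)
      (fun t ht => by rw [(d1 t (hint ht)).deriv]; exact neg t (hint ht))
  have a0 : AntitoneOn (fun t : ℝ => f (t • p)) (Set.Icc (0 : ℝ) 1) :=
    antitoneOn_of_deriv_nonpos (convex_Icc 0 1)
      (fun t ht => (d0 t ht).continuousAt.continuousWithinAt)
      (fun t ht => (d0 t (hint ht)).differentiableAt.differentiableWithinAt)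
      (fun t ht => by
        rw [(d0 t (hint ht)).deriv]
        have := a1 (Set.left_mem_Icc.2 zero_le_one) (hint ht) (hint ht).1
        simpa [h1] using this)
  have := a0 (Set.left_mem_Icc.2 zero_le_one) (Set.right_mem_Icc.2 zero_le_one) zero_le_one
  simpa using this

/-- second order necessary condition for a local minimum. -/
theorem rsv_hessian_nonneg {f : P → ℝ} {N : Set P} (hN : IsOpen N) (h0 : (0 : P) ∈ N)
    (hf : ContDiffOn ℝ ∞ f N) (hmin : ∀ᶠ p in 𝓝 (0 : P), f 0 ≤ f p) (p : P) :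
    0 ≤ fderiv ℝ (fderiv ℝ f) 0 p p := by
  have f2 : ContDiffAt ℝ 2 f 0 := (hf.contDiffAt (hN.mem_nhds h0)).of_le ENat.LEInfty.out
  obtain ⟨a1, -, a3⟩ := R316.sv_line_jets f2 p
  rw [← a3]
  refine rsv_deriv2_nonneg a1 ?_
  have hc : ContinuousAt (fun ε : ℝ => ε • p) 0 := by fun_prop
  have h1 : ∀ᶠ q in 𝓝 ((0 : ℝ) • p), f 0 ≤ f q := by simpa using hmin
  filter_upwards [hc.eventually h1] with ε hε
  simpa using hε

end Claimed.Agent.R314
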