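import Claimed.Agent.R314.SV.Chain
import Claimed.Agent.R314.SV.Calc

/-!
# Row 314, block C, package SV, file 5: the index inequality (fixed end points)

`rsv_index` : `γ` a geodesic on `Ioo (a-ε) (b+ε)` which is a metric segment on `[a,b]`, `Y` parallel, `f` smooth, `f a = f b = 0`:
`∫ f² Rm(Y,T,T,Y) ≤ |Y|² ∫ f'²`   (= exit contract `sv_index` of `C/SV/Exit.lean`).

PROOF (R316 `sv_index`).  Frame `P = ℝ`, `r ↦ r • Y σ`.  `RsvFrame.good` on `[a,b]` with CONSTANT end data: `(b-a)² = rdist (γ a) (γ b)² ≤ (b-a) 𝓔 r`, `𝓔 0 = b - a`: `0` is a local minimum of `𝓔`,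
so `2 rsvIdx 1 = D²𝓔(0)(1,1) ≥ 0`.  `|Y|` is constant (`IsPar.inner_const`).  Unit speed: `IsSeg.exists_geo` + `IsGeo.speed_const`.
-/

set_option autoImplicit false
set_option linter.unusedSectionVars false
open scoped ContDiff Topology
open Set Claims.C0499 Claimed.Agent.R315

namespace Claimed.Agent.R314

variable {V : Type} [NormedAddCommGroup V] [NormedSpace ℝ V] [FiniteDimensional ℝ V]
variable {n : ℕ} {X : Set V} {g : Ten V}

/-- scalar multiples of parallel fields are parallel. -/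
theorem rsv_isPar_smul {γ Y : ℝ → V} {I : Set ℝ} (hY : IsPar n X g γ Y I) (r : ℝ) :
    IsPar n X g γ (fun σ => r • Y σ) I := by
  refine ⟨hY.1.const_smul r, fun t ht => if_tan_smul r (hY.2.1 t ht), ?_⟩
  intro ψ U hp c e I' hsub hI' hrep
  by_cases hr : r = 0
  · -- the coordinate field vanishes on the open set `I'`
    have h0 : ∀ t ∈ I', e t = 0 := by
      intro t ht
      apply if_imm hp (hrep t ht).1
      rw [(hrep t ht).2.2, hr]
      simp
    intro t ht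
    have h1 : e =ᶠ[𝓝 t] fun _ => 0 := by
      filter_upwards [hI'.mem_nhds ht] with s hs
      exact h0 s hs
    unfold R316.RGeo.covD
    rw [h1.deriv_eq, h0 t ht]
    simp
  · have h1 := hY.2.2 ψ U hp c (fun t => r⁻¹ • e t) I' hsub hI' fun t ht =>
      ⟨(hrep t ht).1, (hrep t ht).2.1, by
        rw [map_smul, (hrep t ht).2.2, smul_smul, inv_mul_cancel₀ hr, one_smul]⟩
    intro t ht
    have h2 := (rgeo g ψ U).covD_const_smul c (fun t => r⁻¹ • e t) r t
    have h3 : (fun s => r • (fun t => r⁻¹ • e t) s) = e := by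
      funext s
      simp only
      rw [smul_smul, mul_inv_cancel₀ hr, one_smul]
    rw [h3, h1 t ht, smul_zero] at h2
    exact h2

/-- a geodesic which is a metric segment on `[a,b]` has unit speed. -/
theorem rsv_unit_speed (h : CM n X g) {γ : ℝ → V} {a b ε : ℝ} (hab : a < b) (hε : 0 < ε)
    (hγ : IsGeo n X g γ (Ioo (a - ε) (b + ε))) (hseg : IsSeg X g γ (Icc a b)) :
    ∀ σ ∈ Ioo (a - ε) (b + ε), g (γ σ) (deriv γ σ) (deriv γ σ) = 1 := by
  obtain ⟨γ₂, ε₂, hε₂, -, heq, hu⟩ := hseg.exists_geo h hab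
  have hm : (a + b) / 2 ∈ Ioo a b := ⟨by linarith, by linarith⟩
  have hev : γ₂ =ᶠ[𝓝 ((a + b) / 2)] γ := by
    filter_upwards [isOpen_Ioo.mem_nhds hm] with s hs
    exact heq ⟨hs.1.le, hs.2.le⟩
  have h1 := hu ((a + b) / 2) ⟨by linarith [hm.1], by linarith [hm.2]⟩
  rw [hev.deriv_eq, hev.self_of_nhds] at h1
  intro σ hσ
  rw [hγ.speed_const h.mfd h.met hσ (t := (a + b) / 2) ⟨by linarith [hm.1], by linarith [hm.2]⟩]
  exact h1

/-- the frame `r ↦ r • Y σ` of a single parallel field. -/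
theorem rsv_frame_single {γ Y : ℝ → V} {t₀ t₁ : ℝ} (hγ : IsGeo n X g γ (Ioo t₀ t₁))
    (hu : ∀ σ ∈ Ioo t₀ t₁, g (γ σ) (deriv γ σ) (deriv γ σ) = 1)
    (hY : IsPar n X g γ Y (Ioo t₀ t₁)) :
    RsvFrame n X g γ (fun σ => (ContinuousLinearMap.id ℝ ℝ).smulRight (Y σ)) t₀ t₁ where
  geod := hγ
  unit := hu
  smooth := (ContinuousLinearMap.smulRightL ℝ ℝ V
    (ContinuousLinearMap.id ℝ ℝ)).contDiff.comp_contDiffOn hY.1
  par := fun p => by
    simpa using rsv_isPar_smul hY p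

theorem rsv_index (h : CM n X g) {γ Y : ℝ → V} {a b ε : ℝ} (hab : a < b) (hε : 0 < ε)
    (hγ : IsGeo n X g γ (Ioo (a - ε) (b + ε))) (hseg : IsSeg X g γ (Icc a b))
    (hY : IsPar n X g γ Y (Ioo (a - ε) (b + ε))) {f : ℝ → ℝ} (hf : ContDiff ℝ ∞ f) (hfa : f a = 0)
    (hfb : f b = 0) :
    ∫ σ in a..b, f σ ^ 2 * secA n X g (γ σ) (Y σ) (deriv γ σ) ≤
      g (γ a) (Y a) (Y a) * ∫ σ in a..b, deriv f σ ^ 2 := by
  have hu := rsv_unit_speed h hab hε hγ hseg
  have F := rsv_frame_single hγ hu hY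
  obtain ⟨hint, hend⟩ := F.good h hf (a := a) (b := b) (by linarith) hab (by linarith)
  have haI : a ∈ Icc a b := ⟨le_rfl, hab.le⟩
  have hbI : b ∈ Icc a b := ⟨hab.le, le_rfl⟩
  have hsubI : Icc a b ⊆ Ioo (a - ε) (b + ε) := fun x hx =>
    ⟨by linarith [hx.1], by linarith [hx.2]⟩
  obtain ⟨ψa, Ua, hpa, za, hza, hzxa⟩ := h.mfd _ (hseg.1 a haI)
  obtain ⟨ψb, Ub, hpb, zb, hzb, hzxb⟩ := h.mfd _ (hseg.1 b hbI)
  have ea : RsvEnd X ψa Ua (fun _ : ℝ => za) (γ a)
      (f a • (ContinuousLinearMap.id ℝ ℝ).smulRight (Y a)) := by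
    have := rsvEnd_const (P := ℝ) hpa hza
    rw [hzxa] at this
    simpa [hfa] using this
  have eb : RsvEnd X ψb Ub (fun _ : ℝ => zb) (γ b)
      (f b • (ContinuousLinearMap.id ℝ ℝ).smulRight (Y b)) := by
    have := rsvEnd_const (P := ℝ) hpb hzb
    rw [hzxb] at this
    simpa [hfb] using this
  obtain ⟨𝓔, N, hN, h0N, h𝓔, hle, h𝓔0, -, hd2⟩ := hend _ _ _ _ _ _ ea eb
  have hdist : rdist X g (γ a) (γ b) = b - a := by
    rw [hseg.2 a haI b hbI, abs_sub_comm, abs_of_pos (sub_pos.2 hab)]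
  have hmin : ∀ᶠ q in 𝓝 (0 : ℝ), 𝓔 0 ≤ 𝓔 q := by
    filter_upwards [hN.mem_nhds h0N] with q hq
    have h2 := (hle q hq).2
    rw [hzxa, hzxb, hdist] at h2
    rw [h𝓔0]
    have : 0 < b - a := sub_pos.2 hab
    nlinarith
  have h3 := rsv_hessian_nonneg hN h0N h𝓔 hmin 1
  rw [hd2, rsvAcc_const, rsvAcc_const] at h3
  simp only [map_zero, mul_zero, add_zero, sub_zero] at h3
  -- the index form
  have hden : ∀ σ ∈ uIcc a b,
      rsvDen n X g γ (fun σ => (ContinuousLinearMap.id ℝ ℝ).smulRight (Y σ)) f 1 σ =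
      g (γ a) (Y a) (Y a) * deriv f σ ^ 2 - f σ ^ 2 * secA n X g (γ σ) (Y σ) (deriv γ σ) := by
    intro σ hσ
    rw [uIcc_of_le hab.le] at hσ
    unfold rsvDen
    simp only [ContinuousLinearMap.smulRight_apply, ContinuousLinearMap.id_apply, one_smul]
    rw [hY.inner_const h.mfd h.met hγ hY (hsubI hσ) (hsubI haI)]
    ring
  have i1 : IntervalIntegrable (fun σ => g (γ a) (Y a) (Y a) * deriv f σ ^ 2)
      MeasureTheory.volume a b :=
    (((hf.continuous_deriv (by simp)).pow 2).const_mul _).intervalIntegrable a b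
  have i2 : IntervalIntegrable (fun σ => f σ ^ 2 * secA n X g (γ σ) (Y σ) (deriv γ σ))
      MeasureTheory.volume a b := by
    refine ContinuousOn.intervalIntegrable ?_
    rw [uIcc_of_le hab.le]
    exact ((hf.continuous.pow 2).continuousOn).mul
      ((hY.continuousOn_secA h.mfd h.met isOpen_Ioo hγ).mono hsubI)
  have h4 : rsvIdx n X g γ (fun σ => (ContinuousLinearMap.id ℝ ℝ).smulRight (Y σ)) f a b 1 =
      g (γ a) (Y a) (Y a) * (∫ σ in a..b, deriv f σ ^ 2) -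
        ∫ σ in a..b, f σ ^ 2 * secA n X g (γ σ) (Y σ) (deriv γ σ) := by
    unfold rsvIdx
    rw [intervalIntegral.integral_congr hden, intervalIntegral.integral_sub i1 i2,
      intervalIntegral.integral_const_mul]
  rw [h4] at h3
  linarith

end Claimed.Agent.R314
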