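import Claimed.Agent.R314.SV.Index
import Claimed.Agent.R314.C.Trace

/-!
# Row 314, block C, package SV, file 6: from the Hessian inequality of `sv_master` to the Laplacian comparison (`Ric = 0`)

`rsv_sum_secA` : the sum of `secA (Y_m σ) T` over parallel fields which are orthonormal at one time vanishes if `RicFlat`.
`rsv_lap_of_master` : if `s` satisfies the Hessian inequality of the master statement (any continuous weight `w`), then `lap s (γ b) ≤ (n-1)/l`.
(helper201.)  Tools: `C/Trace.lean` (helper93): `tr_lap`, `tr_ric`, `tr_trace`, `tr_onb_exists`.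
-/

set_option autoImplicit false
set_option linter.unusedSectionVars false
open scoped ContDiff Topology
open Set Claims.C0499 Claimed.Agent.R315

namespace Claimed.Agent.R314

variable {V : Type} [NormedAddCommGroup V] [NormedSpace ℝ V] [FiniteDimensional ℝ V]
variable {n : ℕ} {X : Set V} {g : Ten V}

theorem rsv_rmMet (hg : IsMetricOn n X g) {ψ : E n → V} {U : Set (E n)} (hp : IsParam X ψ U) :
    rm_Met (cm g ψ) U := ⟨if_open hp, (hg ψ U hp).1, (hg ψ U hp).2⟩

/-- Parseval for a `G(u)`-orthonormal family. -/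
theorem rsv_parseval {G : rm_MF n} {U : Set (E n)} {u : E n} (hG : rm_Met G U) (hu : u ∈ U)
    {A : Fin n → E n} (hA : TrOn G u A) (B : E n) :
    ∑ m, if_bil (G u) B (A m) ^ 2 = if_bil (G u) B B := by
  have h1 := tr_trace hG hu hA
    ((if_bil (G u) B).smulRight B : E n →L[ℝ] E n).toLinearMap
  simp only [ContinuousLinearMap.coe_coe, ContinuousLinearMap.smulRight_apply, map_smul,
    smul_apply, smul_eq_mul, PiLp.smul_apply] at h1
  have h2 : ∑ p, if_bil (G u) B (eb p) * B p = if_bil (G u) B B := by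
    conv_rhs => rw [if_clm_expand (if_bil (G u) B) B]
    exact Finset.sum_congr rfl fun p _ => mul_comm _ _
  rw [← h2, ← h1]
  exact Finset.sum_congr rfl fun m _ => by ring

/-- the Ricci curvature in the direction `T` as a sum over ambient orthonormal tangent vectors. -/
theorem rsv_sum_secA_point (hM : IsMfd n X) (hg : IsMetricOn n X g) (hR : RicFlat n X g) {x : V}
    (hx : x ∈ X) {y : Fin n → V} (hy : ∀ m, y m ∈ if_Tan n X x)
    (hon : ∀ a b, g x (y a) (y b) = if a = b then 1 else 0) {T : V} (hT : T ∈ if_Tan n X x) :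
    ∑ m, secA n X g x (y m) T = 0 := by
  obtain ⟨ψ, U, hp, u, hu, rfl⟩ := hM x hx
  have hA : ∀ m, ∃ A : E n, y m = fderiv ℝ ψ u A := fun m => (if_tan_iff hp hu).1 (hy m)
  choose A hA using hA
  obtain ⟨B, hB⟩ := (if_tan_iff hp hu).1 hT
  have hOn : TrOn (cm g ψ) u A := by
    intro a b
    rw [if_cm_bil, ← hA a, ← hA b]
    exact hon a b
  have h1 := tr_ric (rsv_rmMet hg hp) hu hOn B
  rw [← tr_rgeo g ψ U] at h1
  have h2 : ∀ m, secA n X g (ψ u) (y m) T = (rgeo g ψ U).secNum u (A m) B := fun m => by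
    rw [hA m, hB]
    exact secA_eq hg hp hu (A m) B
  simp only [h2, h1, hR ψ U hp u hu]
  simp

theorem rsv_lap_of_master (h : CM n X g) (hR : RicFlat n X g) {γ : ℝ → V} {a b ε l : ℝ}
    (hab : a < b) (hε : 0 < ε) (hl : 0 < l) (hγ : IsGeo n X g γ (Ioo (a - ε) (b + ε)))
    (hu : ∀ σ ∈ Ioo (a - ε) (b + ε), g (γ σ) (deriv γ σ) (deriv γ σ) = 1)
    {w : ℝ → ℝ} (hw : Continuous w) {s : V → ℝ} (hs : SmoothAlong n X s)
    (hH : ∀ Y : ℝ → V, IsPar n X g γ Y (Ioo (a - ε) (b + ε)) →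
        ∀ (ψ : E n → V) (U : Set (E n)), IsParam X ψ U → ∀ u ∈ U, ψ u = γ b → ∀ A : E n,
          fderiv ℝ ψ u A = Y b →
          (rgeo g ψ U).hess (s ∘ ψ) u A A ≤ g (γ b) (Y b) (Y b) / l -
            g (γ b) (deriv γ b) (Y b) ^ 2 / l -
            ∫ σ in a..b, w σ * secA n X g (γ σ) (Y σ) (deriv γ σ)) :
    lap n X g s (γ b) ≤ ((n : ℝ) - 1) / l := by
  have hsubI : Icc a b ⊆ Ioo (a - ε) (b + ε) := fun x hx =>
    ⟨by linarith [hx.1], by linarith [hx.2]⟩
  have hbI : b ∈ Ioo (a - ε) (b + ε) := hsubI ⟨hab.le, le_rfl⟩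
  obtain ⟨ψ, U, hp, u, huU, hux⟩ := h.mfd _ (hγ.2.1 b hbI)
  have hG := rsv_rmMet h.met hp
  obtain ⟨A, hA⟩ := tr_onb_exists hG huU
  have hex : ∀ m, ∃ Y : ℝ → V, IsPar n X g γ Y (Ioo (a - ε) (b + ε)) ∧
      Y b = fderiv ℝ ψ u (A m) := fun m =>
    par_exists h.mfd h.met hγ hbI (by rw [← hux]; exact if_tan_mk hp huU (A m))
  choose Y hY hYb using hex
  obtain ⟨B, hB⟩ := (if_tan_iff hp huU).1
    (by rw [hux]; exact hγ.deriv_mem_tan h.mfd isOpen_Ioo hbI)
  -- orthonormality at time `b`, hence at all times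
  have hon : ∀ σ ∈ Ioo (a - ε) (b + ε), ∀ i j, g (γ σ) (Y i σ) (Y j σ) = if i = j then 1 else 0 := by
    intro σ hσ i j
    rw [(hY i).inner_const h.mfd h.met hγ (hY j) hσ hbI, hYb, hYb, ← hux, ← if_cm_bil]
    exact hA i j
  -- the Laplacian
  rw [← hux, if_lap_eq h.met hs hp huU, tr_lap hG huU hA (hs ψ U hp), ← tr_rgeo g ψ U]
  have hterm : ∀ m, (rgeo g ψ U).hess (s ∘ ψ) u (A m) (A m) ≤
      1 / l - if_bil (cm g ψ u) B (A m) ^ 2 / l -
        ∫ σ in a..b, w σ * secA n X g (γ σ) (Y m σ) (deriv γ σ) := by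
    intro m
    have h1 := hH (Y m) (hY m) ψ U hp u huU hux (A m) (hYb m).symm
    rw [hon b hbI m m, if_pos rfl, hYb m, hB, ← hux, ← if_cm_bil] at h1
    exact h1
  have hint : ∀ m, IntervalIntegrable (fun σ => w σ * secA n X g (γ σ) (Y m σ) (deriv γ σ))
      MeasureTheory.volume a b := by
    intro m
    refine ContinuousOn.intervalIntegrable ?_
    rw [uIcc_of_le hab.le]
    exact hw.continuousOn.mul (((hY m).continuousOn_secA h.mfd h.met isOpen_Ioo hγ).mono hsubI)
  have hsum : ∑ m, ∫ σ in a..b, w σ * secA n X g (γ σ) (Y m σ) (deriv γ σ) = 0 := by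
    rw [← intervalIntegral.integral_finsetSum fun m _ => hint m]
    rw [intervalIntegral.integral_congr (g := fun _ => (0 : ℝ)) fun σ hσ => ?_]
    · simp
    · rw [uIcc_of_le hab.le] at hσ
      simp only
      rw [← Finset.mul_sum, rsv_sum_secA_point h.mfd h.met hR (hγ.2.1 σ (hsubI hσ))
        (fun m => (hY m).2.1 σ (hsubI hσ)) (hon σ (hsubI hσ))
        (hγ.deriv_mem_tan h.mfd isOpen_Ioo (hsubI hσ)), mul_zero]
  have hBB : if_bil (cm g ψ u) B B = 1 := by
    rw [if_cm_bil, ← hB, hux]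
    exact hu b hbI
  calc ∑ m, (rgeo g ψ U).hess (s ∘ ψ) u (A m) (A m)
      ≤ ∑ m, (1 / l - if_bil (cm g ψ u) B (A m) ^ 2 / l -
        ∫ σ in a..b, w σ * secA n X g (γ σ) (Y m σ) (deriv γ σ)) :=
        Finset.sum_le_sum fun m _ => hterm m
    _ = ((n : ℝ) - 1) / l := by
        rw [Finset.sum_sub_distrib, Finset.sum_sub_distrib, hsum, ← Finset.sum_div,
          ← Finset.sum_div, rsv_parseval hG huU hA B, hBB]
        simp
        ring

end Claimed.Agent.R314
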