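import Claimed.Agent.R314.SV.Index

/-!
# Row 314, block C, package SV, file 8: parallel frames along a geodesic

* `rsv_isPar_add`, `rsv_isPar_sum`, `rsv_isPar_zero` (and `rsv_isPar_smul` of `SV/Index.lean`): linear combinations of parallel fields are parallel.
* `rsv_isPar_eqOn` : uniqueness of parallel fields (difference + `IsPar.inner_const` + positivity).
* `exists_rsvFrame` : a linear family of tangent vectors at an interior time extends to an `RsvFrame`.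
* `RsvFrame.eqOn_of_parallel`.
(statements: helper154; proofs: helper201.  Real port of the end of `R316/Base/SV/Chain.lean`.)
-/

set_option autoImplicit false
set_option linter.unusedSectionVars false
open scoped ContDiff Topology
open Set Claims.C0499 Claimed.Agent.R315

namespace Claimed.Agent.R314

variable {V : Type} [NormedAddCommGroup V] [NormedSpace ℝ V] [FiniteDimensional ℝ V]
variable {P : Type} [NormedAddCommGroup P] [NormedSpace ℝ P] [FiniteDimensional ℝ P]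
variable {n : ℕ} {X : Set V} {g : Ten V}

/-- smooth local coordinates of a smooth tangent field along a curve. -/
theorem rsv_par_lift {ψ : E n → V} {U : Set (E n)} (hp : IsParam X ψ U) {γ Y : ℝ → V} {c : ℝ → E n}
    {I' : Set ℝ} (hI' : IsOpen I') (hγ : ContDiffOn ℝ ∞ γ I') (hY : ContDiffOn ℝ ∞ Y I')
    (hT : ∀ t ∈ I', Y t ∈ if_Tan n X (γ t)) (hc : ∀ t ∈ I', c t ∈ U ∧ ψ (c t) = γ t) {t : ℝ}
    (ht : t ∈ I') :
    ∃ (J : Set ℝ) (e : ℝ → E n), IsOpen J ∧ t ∈ J ∧ J ⊆ I' ∧ ContDiffOn ℝ ∞ e J ∧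
      ∀ s ∈ J, fderiv ℝ ψ (c s) (e s) = Y s := by
  obtain ⟨ρ, O, hO, hmem, hρ, -, hinv⟩ := if_exists_retr hp (hc t ht).1
  rw [(hc t ht).2] at hmem
  have hJ : IsOpen (I' ∩ γ ⁻¹' O) := hγ.continuousOn.isOpen_inter_preimage hI' hO
  refine ⟨I' ∩ γ ⁻¹' O, fun s => fderiv ℝ ρ (γ s) (Y s), hJ, ⟨ht, hmem⟩, inter_subset_left, ?_, ?_⟩
  · have h1 : ContDiffOn ℝ ∞ (fderiv ℝ ρ) O := hρ.fderiv_of_isOpen hO (by simp)
    exact (h1.comp (hγ.mono inter_subset_left) fun s hs => hs.2).clm_apply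
      (hY.mono inter_subset_left)
  · intro s hs
    have h1 := hT s hs.1
    rw [← (hc s hs.1).2] at h1
    obtain ⟨v, hv⟩ := (if_tan_iff hp (hc s hs.1).1).1 h1
    have h2 := rsv_fderiv_leftInverse hp hO hρ hinv (hc s hs.1).1
      (by rw [(hc s hs.1).2]; exact hs.2) v
    rw [(hc s hs.1).2] at h2
    show fderiv ℝ ψ (c s) (fderiv ℝ ρ (γ s) (Y s)) = Y s
    rw [hv, h2]

/-- sums of parallel fields are parallel. -/
theorem rsv_isPar_add {γ Y₁ Y₂ : ℝ → V} {I : Set ℝ} (hγ : ContDiffOn ℝ ∞ γ I)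
    (h₁ : IsPar n X g γ Y₁ I) (h₂ : IsPar n X g γ Y₂ I) :
    IsPar n X g γ (fun σ => Y₁ σ + Y₂ σ) I := by
  refine ⟨h₁.1.add h₂.1, fun t ht => if_tan_add (h₁.2.1 t ht) (h₂.2.1 t ht), ?_⟩
  intro ψ U hp c e I' hsub hI' hrep t ht
  have hc : ∀ t ∈ I', c t ∈ U ∧ ψ (c t) = γ t := fun t ht => ⟨(hrep t ht).1, (hrep t ht).2.1⟩
  obtain ⟨J₁, e₁, o₁, m₁, s₁, c₁, r₁⟩ := rsv_par_lift hp hI' (hγ.mono hsub) (h₁.1.mono hsub)
    (fun t ht => h₁.2.1 t (hsub ht)) hc ht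
  obtain ⟨J₂, e₂, o₂, m₂, s₂, c₂, r₂⟩ := rsv_par_lift hp hI' (hγ.mono hsub) (h₂.1.mono hsub)
    (fun t ht => h₂.2.1 t (hsub ht)) hc ht
  have p₁ := h₁.2.2 ψ U hp c e₁ J₁ (s₁.trans hsub) o₁
    (fun s hs => ⟨(hc s (s₁ hs)).1, (hc s (s₁ hs)).2, r₁ s hs⟩) t m₁
  have p₂ := h₂.2.2 ψ U hp c e₂ J₂ (s₂.trans hsub) o₂
    (fun s hs => ⟨(hc s (s₂ hs)).1, (hc s (s₂ hs)).2, r₂ s hs⟩) t m₂
  have hev : e =ᶠ[𝓝 t] fun s => e₁ s + e₂ s := by
    filter_upwards [o₁.mem_nhds m₁, o₂.mem_nhds m₂] with s a₁ a₂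
    apply if_imm hp (hc s (s₁ a₁)).1
    rw [(hrep s (s₁ a₁)).2.2, map_add, r₁ s a₁, r₂ s a₂]
  rw [(rgeo g ψ U).covD_congr (Filter.EventuallyEq.refl _ c) hev,
    (rgeo g ψ U).covD_add ((c₁.contDiffAt (o₁.mem_nhds m₁)).differentiableAt (by simp))
      ((c₂.contDiffAt (o₂.mem_nhds m₂)).differentiableAt (by simp)), p₁, p₂, add_zero]

/-- finite sums of parallel fields are parallel (nonempty index set is not needed: the zero field is `0 • Y`). -/
theorem rsv_isPar_sum {γ : ℝ → V} {I : Set ℝ} (hγ : ContDiffOn ℝ ∞ γ I) {Y₀ : ℝ → V}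
    (h₀ : IsPar n X g γ Y₀ I) {κ : Type} (s : Finset κ) (Z : κ → ℝ → V)
    (hZ : ∀ i, IsPar n X g γ (Z i) I) : IsPar n X g γ (fun t => ∑ i ∈ s, Z i t) I := by
  classical
  induction s using Finset.induction_on with
  | empty =>
    have h0 := rsv_isPar_smul h₀ 0
    simpa using h0
  | insert i s hi ih =>
    have h1 := rsv_isPar_add hγ (hZ i) ih
    simpa [Finset.sum_insert hi] using h1

/-- a tangent vector of length zero vanishes. -/
theorem rsv_tan_eq_zero (hg : IsMetricOn n X g) {x v : V} (hv : v ∈ if_Tan n X x)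
    (h0 : g x v v = 0) : v = 0 := by
  obtain ⟨ψ, U, u, a, hp, hu, rfl, rfl⟩ := hv
  by_contra hne
  have ha : a ≠ 0 := fun h => hne (by rw [h, map_zero])
  have h1 := (rgeo_isRiem hg hp).G_pos u hu a ha
  have h2 : (rgeo g ψ U).G u a a = g (ψ u) (fderiv ℝ ψ u a) (fderiv ℝ ψ u a) := if_cm_bil g ψ u a a
  rw [h2, h0] at h1
  exact lt_irrefl _ h1

/-- uniqueness of parallel fields along a geodesic. -/
theorem rsv_isPar_eqOn (hX : IsMfd n X) (hg : IsMetricOn n X g) {γ Y₁ Y₂ : ℝ → V} {a b : ℝ}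
    (hγ : IsGeo n X g γ (Ioo a b)) (h₁ : IsPar n X g γ Y₁ (Ioo a b))
    (h₂ : IsPar n X g γ Y₂ (Ioo a b)) {s : ℝ} (hs : s ∈ Ioo a b) (h0 : Y₁ s = Y₂ s) :
    EqOn Y₁ Y₂ (Ioo a b) := by
  have hD := rsv_isPar_add hγ.1 h₁ (rsv_isPar_smul h₂ (-1))
  intro σ hσ
  have h1 := hD.inner_const hX hg hγ hD hσ hs
  simp only [h0, neg_smul, one_smul, add_neg_cancel, map_zero] at h1
  have h2 := rsv_tan_eq_zero hg (hD.2.1 σ hσ) (by simpa using h1)
  simp only [neg_smul, one_smul] at h2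
  exact add_neg_eq_zero.1 h2

/-- construction of frames. -/
theorem exists_rsvFrame (hX : IsMfd n X) (hg : IsMetricOn n X g) {γ : ℝ → V} {t₀ t₁ : ℝ}
    (hγ : IsGeo n X g γ (Ioo t₀ t₁))
    (hu : ∀ σ ∈ Ioo t₀ t₁, g (γ σ) (deriv γ σ) (deriv γ σ) = 1) {s : ℝ} (hs : s ∈ Ioo t₀ t₁)
    (e : P →L[ℝ] V) (he : ∀ p, e p ∈ if_Tan n X (γ s)) :
    ∃ Y : ℝ → P →L[ℝ] V, RsvFrame n X g γ Y t₀ t₁ ∧ Y s = e := by
  classical
  have hex := fun i => par_exists hX hg hγ hs (he (Module.finBasis ℝ P i))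
  choose Z hZ hZs using hex
  have happ : ∀ σ p, (∑ i, (LinearMap.toContinuousLinearMap
      ((Module.finBasis ℝ P).coord i)).smulRight (Z i σ)) p =
      ∑ i, (Module.finBasis ℝ P).coord i p • Z i σ := by
    intro σ p
    simp
  have hpar : ∀ p, IsPar n X g γ (fun σ => (∑ i, (LinearMap.toContinuousLinearMap
      ((Module.finBasis ℝ P).coord i)).smulRight (Z i σ)) p) (Ioo t₀ t₁) := by
    intro p
    simp only [happ]
    exact rsv_isPar_sum hγ.1 (hγ.isPar_deriv hX hg isOpen_Ioo) Finset.univ _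
      fun i => rsv_isPar_smul (hZ i) _
  have hEs : (∑ i, (LinearMap.toContinuousLinearMap
      ((Module.finBasis ℝ P).coord i)).smulRight (Z i s)) = e := by
    ext1 p
    rw [happ]
    simp only [hZs]
    conv_rhs => rw [← (Module.finBasis ℝ P).sum_repr p, map_sum]
    simp [Module.Basis.coord_apply]
  refine ⟨fun σ => ∑ i, (LinearMap.toContinuousLinearMap
    ((Module.finBasis ℝ P).coord i)).smulRight (Z i σ), ?_, hEs⟩
  refine
    { geod := hγ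
      unit := hu
      smooth := ?_
      par := hpar }
  refine ContDiffOn.sum fun i _ => ?_
  exact (ContinuousLinearMap.smulRightL ℝ P V (LinearMap.toContinuousLinearMap
    ((Module.finBasis ℝ P).coord i))).contDiff.comp_contDiffOn (hZ i).1

theorem RsvFrame.eqOn_of_parallel (hX : IsMfd n X) (hg : IsMetricOn n X g) {γ : ℝ → V}
    {Y : ℝ → P →L[ℝ] V} {t₀ t₁ : ℝ} (F : RsvFrame n X g γ Y t₀ t₁) {Y' : ℝ → V}
    (hY' : IsPar n X g γ Y' (Ioo t₀ t₁)) {s : ℝ} (hs : s ∈ Ioo t₀ t₁) {p : P}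
    (h0 : Y' s = Y s p) : EqOn Y' (fun σ => Y σ p) (Ioo t₀ t₁) :=
  rsv_isPar_eqOn hX hg F.geod hY' (F.par p) hs h0

end Claimed.Agent.R314
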