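import Claimed.Agent.R314.SV.Defs

/-!
# Row 314, block C, package SV, file 7: from a chart function to a global support function

`rsv_exists_global` : a smooth function `f` near `u₀` in the parameter domain is `s ∘ ψ` near `u₀` for some `s` which is smooth along `X` (retraction + bump function).
`rsv_upperSupp_of_chart` : the support property can be checked in one parametrisation.
(statements: helper154; proofs: helper201.)
-/

set_option autoImplicit false
set_option linter.unusedSectionVars false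
open scoped ContDiff Topology
open Set Claims.C0499 Claimed.Agent.R315

namespace Claimed.Agent.R314

variable {V : Type} [NormedAddCommGroup V] [NormedSpace ℝ V] [FiniteDimensional ℝ V]
variable {n : ℕ} {X : Set V}

theorem rsv_exists_global {ψ : E n → V} {U : Set (E n)} (hp : IsParam X ψ U) {u₀ : E n}
    (hu₀ : u₀ ∈ U) {f : E n → ℝ} {N : Set (E n)} (hN : IsOpen N) (h0 : u₀ ∈ N)
    (hf : ContDiffOn ℝ ∞ f N) :
    ∃ s : V → ℝ, SmoothAlong n X s ∧ ∀ᶠ z in 𝓝 u₀, s (ψ z) = f z := by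
  obtain ⟨ρ, O, hO, hmem, hρ, -, hinv⟩ := if_exists_retr hp hu₀
  have hρu : ρ (ψ u₀) = u₀ := by
    rw [(hinv _ ⟨if_mem hp hu₀, hmem⟩).2, if_leftInv hp hu₀]
  have hO' : IsOpen (O ∩ ρ ⁻¹' N) := hρ.continuousOn.isOpen_inter_preimage hO hN
  have hmem' : ψ u₀ ∈ O ∩ ρ ⁻¹' N := ⟨hmem, by rw [mem_preimage, hρu]; exact h0⟩
  have hF : ContDiffOn ℝ ∞ (fun x => f (ρ x)) (O ∩ ρ ⁻¹' N) :=
    hf.comp (hρ.mono inter_subset_left) fun x hx => hx.2
  obtain ⟨r, hr, hball⟩ := Metric.isOpen_iff.1 hO' _ hmem'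
  let χ : ContDiffBump (ψ u₀) := ⟨r / 4, r / 2, by positivity, by linarith⟩
  have hsub : tsupport χ ⊆ O ∩ ρ ⁻¹' N := by
    rw [χ.tsupport_eq]
    exact (Metric.closedBall_subset_ball (by show r / 2 < r; linarith)).trans hball
  have hχ : SmoothAlong n X (χ : V → ℝ) :=
    if_smoothAlong_of_near ⟨univ, isOpen_univ, subset_univ _, χ.contDiff.contDiffOn⟩
  have hFs : SmoothAlong n (X ∩ (O ∩ ρ ⁻¹' N)) fun x => f (ρ x) :=
    if_smoothAlong_of_near ⟨_, hO', inter_subset_right, hF⟩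
  refine ⟨fun x => χ x • f (ρ x), if_smoothAlong_cutoff hO' hχ hsub hFs, ?_⟩
  have hc : ContinuousAt ψ u₀ := (if_differentiableAt hp hu₀).continuousAt
  filter_upwards [hc.eventually χ.eventuallyEq_one, hc.eventually (hO.mem_nhds hmem),
    (if_open hp).mem_nhds hu₀] with z h1 h2 h3
  rw [h1, (hinv _ ⟨if_mem hp h3, h2⟩).2, if_leftInv hp h3]
  simp

theorem rsv_upperSupp_of_chart {ψ : E n → V} {U : Set (E n)} (hp : IsParam X ψ U) {u₀ : E n}
    (hu₀ : u₀ ∈ U) {f s : V → ℝ} (hs : SmoothAlong n X s)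
    (hle : ∀ᶠ z in 𝓝 u₀, f (ψ z) ≤ s (ψ z)) (heq : s (ψ u₀) = f (ψ u₀)) :
    UpperSupp n X f s (ψ u₀) := by
  refine ⟨hs, ?_, heq⟩
  obtain ⟨W, hW, hWo, hW0⟩ := eventually_nhds_iff.1 hle
  obtain ⟨O₁, hO₁, he⟩ := if_image_open hp (hWo.inter (if_open hp)) inter_subset_right
  have hm : ψ u₀ ∈ O₁ := by
    have : ψ u₀ ∈ X ∩ O₁ := he ▸ mem_image_of_mem ψ ⟨hW0, hu₀⟩
    exact this.2
  rw [eventually_nhdsWithin_iff]
  filter_upwards [hO₁.mem_nhds hm] with y hy hyX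
  have : y ∈ ψ '' (W ∩ U) := he ▸ ⟨hyX, hy⟩
  obtain ⟨z, hz, rfl⟩ := this
  exact hW z hz.1

end Claimed.Agent.R314
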