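import Claimed.Agent.R314.SV.Defs
import Claimed.Agent.R314.C.Trace

/-!
# Row 314, block C, package SV, file 9: invariance of the chart Hessian under change of parametrisation

`rsv_hess_tr` : `(rgeo g ψ U).hess (s ∘ ψ) u A B` depends only on the ambient tangent vectors `dψ A`, `dψ B` (`if_hess_pull`, `if_PullC.conn`).  (helper201.)
-/

set_option autoImplicit false
set_option linter.unusedSectionVars false
open scoped ContDiff Topology
open Set Claims.C0499 Claimed.Agent.R315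

namespace Claimed.Agent.R314

variable {V : Type} [NormedAddCommGroup V] [NormedSpace ℝ V] [FiniteDimensional ℝ V]
variable {n : ℕ} {X : Set V} {g : Ten V}

theorem rsv_hess_tr (hg : IsMetricOn n X g) {s : V → ℝ} (hs : SmoothAlong n X s)
    {ψ ψ' : E n → V} {U U' : Set (E n)} (hp : IsParam X ψ U) (hp' : IsParam X ψ' U') {u u' : E n}
    (hu : u ∈ U) (hu' : u' ∈ U') (he : ψ u = ψ' u') {A B A' B' : E n}
    (hA : fderiv ℝ ψ u A = fderiv ℝ ψ' u' A') (hB : fderiv ℝ ψ u B = fderiv ℝ ψ' u' B') :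
    (rgeo g ψ U).hess (s ∘ ψ) u A B = (rgeo g ψ' U').hess (s ∘ ψ') u' A' B' := by
  have hT := if_mem_trDom hu hu' he
  have e := if_tr_eq hp' hu' he
  have hpull := if_pullC hg hp hp'
  have c1 : ContDiffAt ℝ 2 (s ∘ ψ) u :=
    ((hs ψ U hp).contDiffAt ((if_open hp).mem_nhds hu)).of_le ENat.LEInfty.out
  have c2 : ContDiffAt ℝ 2 (s ∘ ψ') u' :=
    ((hs ψ' U' hp').contDiffAt ((if_open hp').mem_nhds hu')).of_le ENat.LEInfty.out
  have hτ : ContDiffAt ℝ 2 (if_tr ψ' U' ψ) u := (hpull.contDiffAt hT).of_le ENat.LEInfty.out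
  rw [tr_rgeo, tr_rgeo, tr_hess_eq _ _ c1, tr_hess_eq _ _ c2]
  have hev : s ∘ ψ =ᶠ[𝓝 u] (s ∘ ψ') ∘ if_tr ψ' U' ψ := if_comp_eventuallyEq s hp hp' hT
  have h1 : if_hess (if_Gam (cm g ψ)) (s ∘ ψ) u A B =
      if_hess (if_Gam (cm g ψ)) ((s ∘ ψ') ∘ if_tr ψ' U' ψ) u A B := by
    unfold if_hess
    rw [hev.fderiv_eq, hev.fderiv.fderiv_eq]
  have hd : ∀ {C C' : E n}, fderiv ℝ ψ u C = fderiv ℝ ψ' u' C' →
      fderiv ℝ (if_tr ψ' U' ψ) u C = C' := by
    intro C C' hC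
    apply if_imm hp' hu'
    rw [← hC, if_fderiv_eq hp hp' hT, e]
    rfl
  rw [h1, if_hess_pull hτ (by rw [e]; exact c2) (hpull.conn hT), e, hd hA, hd hB]

end Claimed.Agent.R314
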