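import Claimed.Agent.R314.SV.Index
import Claimed.Agent.R314.SV.Calc
import Claimed.Agent.R314.SV.Glob
import Claimed.Agent.R314.SV.Frame
import Claimed.Agent.R314.SV.HessTr
import Claimed.Agent.R314.C.Trace

/-!
# Row 314, block C, package SV, file 5 (helper154): from the energy of trial curves to support functions of the distance

Input: `RsvFrame.good` (`SV/Chain.lean`, helper201).  Output: `rsv_master` = `sv_master` on a GENERAL interval `[a,b]` (fixed end `γ a`, moving end `γ b`; wish (W2) of helper195).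

CONSTRUCTION.  `(ψ₀, U₀)` a parametrisation around `γ b = ψ₀ u₀`; `P = E n`; frame `Y₀` with `Y₀ b = dψ₀(u₀)`; `φ σ = (σ - a)/(b - a)`; end data: constant at `γ a`, `p ↦ u₀ + p` at `γ b`.
`RsvFrame.good` gives `𝓔` with `rdist (γ a) (ψ₀ (u₀ + p))² ≤ l 𝓔 p`, `𝓔 0 = l = b - a`.  `s (ψ₀ z) := √(l 𝓔 (z - u₀))` near `u₀`, extended to a function smooth along `X`.
With `ĝ p = √(l 𝓔 p)` (`rsv_sqrt_jet`): `Dĝ(0) p = ⟨T, Y₀ b p⟩`, `D²ĝ(0)(p,p) = rsvIdx p + ⟨T, dψ₀ Γ(p,p)⟩ - ⟨T, Y₀ b p⟩²/l`, so `Hess s (p,p) = rsvIdx p - ⟨T, Y₀ b p⟩²/l` in `ψ₀`; the Hessian is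
invariant under change of parametrisation (`if_pullC.conn`, `if_hess_pull`).
-/

set_option autoImplicit false
set_option linter.unusedSectionVars false
open scoped ContDiff Topology
open Set Claims.C0499 Claimed.Agent.R315

namespace Claimed.Agent.R314

variable {V : Type} [NormedAddCommGroup V] [NormedSpace ℝ V] [FiniteDimensional ℝ V]
variable {P : Type} [NormedAddCommGroup P] [NormedSpace ℝ P] [FiniteDimensional ℝ P]
variable {n : ℕ} {X : Set V} {g : Ten V}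

/-- the master statement in a parametrisation at the end point. -/
theorem rsv_master_chart (h : CM n X g) {γ : ℝ → V} {a b ε : ℝ} (hab : a < b) (hε : 0 < ε)
    (hγ : IsGeo n X g γ (Ioo (a - ε) (b + ε))) (hseg : IsSeg X g γ (Icc a b))
    {ψ : E n → V} {U : Set (E n)} (hp : IsParam X ψ U) {u₀ : E n} (hu₀ : u₀ ∈ U) (hb : ψ u₀ = γ b) :
    ∃ (f : E n → ℝ) (N : Set (E n)), IsOpen N ∧ (0 : E n) ∈ N ∧ ContDiffOn ℝ ∞ f N ∧
      (∀ p ∈ N, rdist X g (γ a) (ψ (u₀ + p)) ≤ f p) ∧ f 0 = b - a ∧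
      (∀ p, fderiv ℝ f 0 p = g (γ b) (deriv γ b) (fderiv ℝ ψ u₀ p)) ∧
      ∀ (p : E n) (Y : ℝ → V), IsPar n X g γ Y (Ioo (a - ε) (b + ε)) → Y b = fderiv ℝ ψ u₀ p →
        fderiv ℝ (fderiv ℝ f) 0 p p - fderiv ℝ f 0 (if_Gam (cm g ψ) u₀ p p) =
          g (γ b) (Y b) (Y b) / (b - a) - g (γ b) (deriv γ b) (Y b) ^ 2 / (b - a) -
            ∫ σ in a..b, ((σ - a) / (b - a)) ^ 2 * secA n X g (γ σ) (Y σ) (deriv γ σ) := by
  have hu := rsv_unit_speed h hab hε hγ hseg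
  have hl : 0 < b - a := sub_pos.2 hab
  have haI : a ∈ Ioo (a - ε) (b + ε) := ⟨by linarith, by linarith⟩
  have hbI : b ∈ Ioo (a - ε) (b + ε) := ⟨by linarith, by linarith⟩
  obtain ⟨Y₀, F, hYb⟩ := exists_rsvFrame h.mfd h.met hγ hu hbI (fderiv ℝ ψ u₀)
    (fun p => by rw [← hb]; exact if_tan_mk hp hu₀ p)
  have hφ : ContDiff ℝ ∞ (fun σ : ℝ => (σ - a) / (b - a)) := by fun_prop
  have hdφ : ∀ σ : ℝ, deriv (fun σ : ℝ => (σ - a) / (b - a)) σ = 1 / (b - a) := fun σ => by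
    simp [deriv_div_const]
  obtain ⟨hint, hend⟩ := F.good h hφ (a := a) (b := b) (by linarith) hab (by linarith)
  obtain ⟨ψa, Ua, hpa, za, hza, hzae⟩ := h.mfd (γ a) (hγ.2.1 a haI)
  have ea : RsvEnd X ψa Ua (fun _ : E n => za) (γ a)
      ((fun σ : ℝ => (σ - a) / (b - a)) a • Y₀ a) := by
    have := rsvEnd_const (P := E n) hpa hza
    rw [hzae] at this
    simpa using this
  have eb : RsvEnd X ψ U (fun p : E n => u₀ + ContinuousLinearMap.id ℝ (E n) p)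
      (γ b) ((fun σ : ℝ => (σ - a) / (b - a)) b • Y₀ b) := by
    have := rsvEnd_affine hp hu₀ (ContinuousLinearMap.id ℝ (E n)) (fderiv ℝ ψ u₀) (fun p => rfl)
    rw [hb] at this
    simpa [hYb, div_self hl.ne'] using this
  obtain ⟨𝓔, N, hN, h0N, h𝓔, hle, h𝓔0, hd1, hd2⟩ := hend _ _ _ _ _ _ ea eb
  obtain ⟨⟨N', hN', h0N', hsub, hgs⟩, g0, g1, g2⟩ := rsv_sqrt_jet hl hN h0N h𝓔 h𝓔0
  have hd1' : ∀ p, fderiv ℝ 𝓔 0 p = 2 * g (γ b) (deriv γ b) (fderiv ℝ ψ u₀ p) := by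
    intro p
    rw [hd1, hYb]
    simp [div_self hl.ne']
  have hd2' : ∀ p, fderiv ℝ (fderiv ℝ 𝓔) 0 p p =
      2 * rsvIdx n X g γ Y₀ (fun σ : ℝ => (σ - a) / (b - a)) a b p +
        2 * g (γ b) (deriv γ b) (fderiv ℝ ψ u₀ (if_Gam (cm g ψ) u₀ p p)) := by
    intro p
    rw [hd2, rsvAcc_const, rsvAcc_affine]
    simp
  refine ⟨fun p => Real.sqrt ((b - a) * 𝓔 p), N', hN', h0N', hgs, fun p hp => ?_, g0,
    fun p => ?_, ?_⟩
  · have h1 := (hle p (hsub hp)).2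
    rw [hzae] at h1
    exact Real.le_sqrt_of_sq_le h1
  · rw [g1, hd1']
    ring
  · intro p Y hY hYp
    have heq : ∀ σ ∈ Icc a b, Y σ = Y₀ σ p := fun σ hσ =>
      F.eqOn_of_parallel h.mfd h.met hY hbI (p := p) (by rw [hYb, hYp])
        ⟨by linarith [hσ.1], by linarith [hσ.2]⟩
    have hc : ∀ σ ∈ Icc a b, g (γ σ) (Y σ) (Y σ) = g (γ b) (Y b) (Y b) := fun σ hσ =>
      IsPar.inner_const h.mfd h.met hγ hY hY ⟨by linarith [hσ.1], by linarith [hσ.2]⟩ hbI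
    have hI : ∫ σ in a..b, ((σ - a) / (b - a)) ^ 2 * secA n X g (γ σ) (Y σ) (deriv γ σ) =
        g (γ b) (Y b) (Y b) / (b - a) -
          rsvIdx n X g γ Y₀ (fun σ : ℝ => (σ - a) / (b - a)) a b p := by
      have h1 : ∫ σ in a..b, ((σ - a) / (b - a)) ^ 2 * secA n X g (γ σ) (Y σ) (deriv γ σ) =
          ∫ σ in a..b, (g (γ b) (Y b) (Y b) / (b - a) ^ 2 -
            rsvDen n X g γ Y₀ (fun σ : ℝ => (σ - a) / (b - a)) p σ) := by
        refine intervalIntegral.integral_congr fun σ hσ => ?_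
        rw [uIcc_of_le hab.le] at hσ
        simp only [rsvDen, hdφ]
        rw [← heq σ hσ, hc σ hσ]
        field_simp
        ring
      rw [h1, intervalIntegral.integral_sub intervalIntegrable_const (hint p),
        intervalIntegral.integral_const, rsvIdx, smul_eq_mul]
      field_simp
    rw [hI, g2, g1, hd2', hd1', hd1', hYp]
    field_simp
    ring

/-- **master statement, one moving end point, general interval.** -/
theorem rsv_master (h : CM n X g) {γ : ℝ → V} {a b ε : ℝ} (hab : a < b) (hε : 0 < ε)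
    (hγ : IsGeo n X g γ (Ioo (a - ε) (b + ε))) (hseg : IsSeg X g γ (Icc a b)) :
    ∃ s : V → ℝ, UpperSupp n X (rdist X g (γ a)) s (γ b) ∧
      (∀ v ∈ if_Tan n X (γ b), tder n X s (γ b) v = g (γ b) (deriv γ b) v) ∧
      ∀ Y : ℝ → V, IsPar n X g γ Y (Ioo (a - ε) (b + ε)) →
        ∀ (ψ : E n → V) (U : Set (E n)), IsParam X ψ U → ∀ u ∈ U, ψ u = γ b → ∀ A : E n,
          fderiv ℝ ψ u A = Y b →
          (rgeo g ψ U).hess (s ∘ ψ) u A A ≤ g (γ b) (Y b) (Y b) / (b - a) -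
            g (γ b) (deriv γ b) (Y b) ^ 2 / (b - a) -
            ∫ σ in a..b, ((σ - a) / (b - a)) ^ 2 * secA n X g (γ σ) (Y σ) (deriv γ σ) := by
  have hbI : b ∈ Ioo (a - ε) (b + ε) := ⟨by linarith, by linarith⟩
  obtain ⟨ψ₀, U₀, hp₀, u₀, hu₀, hb₀⟩ := h.mfd (γ b) (hγ.2.1 b hbI)
  obtain ⟨f, N, hN, h0N, hf, hle, f0, f1, f2⟩ := rsv_master_chart h hab hε hγ hseg hp₀ hu₀ hb₀
  have hsubc : Continuous (fun z : E n => z - u₀) := by fun_prop
  have hN2 : IsOpen ((fun z : E n => z - u₀) ⁻¹' N) := hN.preimage hsubc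
  have hz2 : u₀ ∈ (fun z : E n => z - u₀) ⁻¹' N := by
    show u₀ - u₀ ∈ N
    rwa [sub_self]
  have hf₁ : ContDiffOn ℝ ∞ (fun z => f (z - u₀)) ((fun z : E n => z - u₀) ⁻¹' N) :=
    hf.comp (contDiff_id.sub contDiff_const).contDiffOn fun z hz => hz
  obtain ⟨s, hs, hsf⟩ := rsv_exists_global hp₀ hu₀ hN2 hz2 hf₁
  have hsf' : (s ∘ ψ₀) =ᶠ[𝓝 u₀] fun z => f (z - u₀) := hsf
  have j1 : fderiv ℝ (s ∘ ψ₀) u₀ = fderiv ℝ f 0 := by
    rw [hsf'.fderiv_eq, fderiv_comp_sub, sub_self]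
  have j2 : fderiv ℝ (fderiv ℝ (s ∘ ψ₀)) u₀ = fderiv ℝ (fderiv ℝ f) 0 := by
    have h1 : fderiv ℝ (fun z => f (z - u₀)) = fun z => fderiv ℝ f (z - u₀) := by
      funext z
      exact fderiv_comp_sub u₀
    rw [hsf'.fderiv.fderiv_eq, h1, fderiv_comp_sub, sub_self]
  have hsupp : UpperSupp n X (rdist X g (γ a)) s (ψ₀ u₀) := by
    refine rsv_upperSupp_of_chart hp₀ hu₀ hs ?_ ?_
    · filter_upwards [hsf, hN2.mem_nhds hz2] with z h1 h2
      rw [h1]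
      have := hle _ h2
      simpa using this
    · rw [hsf.self_of_nhds, sub_self, f0, hb₀,
        hseg.2 a (left_mem_Icc.2 hab.le) b (right_mem_Icc.2 hab.le), abs_sub_comm,
        abs_of_pos (sub_pos.2 hab)]
  rw [hb₀] at hsupp
  refine ⟨s, hsupp, ?_, ?_⟩
  · intro v hv
    rw [← hb₀] at hv
    obtain ⟨p, rfl⟩ := (if_tan_iff hp₀ hu₀).1 hv
    rw [← hb₀, if_tder_apply hs hp₀ hu₀, j1, f1, hb₀]
  · intro Y hY ψ U hp u hu hub A hA
    have hYb : Y b ∈ if_Tan n X (ψ₀ u₀) := hb₀ ▸ hY.2.1 b hbI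
    obtain ⟨p, hp'⟩ := (if_tan_iff hp₀ hu₀).1 hYb
    have hs2 : ContDiffAt ℝ 2 (s ∘ ψ₀) u₀ :=
      (if_smoothAlong_contDiffAt hs hp₀ hu₀).of_le ENat.LEInfty.out
    rw [rsv_hess_tr h.met hs hp hp₀ hu hu₀ (hub.trans hb₀.symm) (hA.trans hp') (hA.trans hp'), tr_rgeo,
      tr_hess_eq _ _ hs2, if_hess, j1, j2, f2 p Y hY hp']

end Claimed.Agent.R314
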