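import Claimed.Agent.R314.SV.Len
import Claimed.Agent.R314.C.Geo.Exit

/-!
# Row 314, block C, package SV, file 4: the energy of trial curves along a LONG geodesic (chain of parametrisations)

Real port of `R316/Base/SV/Chain.lean`, sections 4-5 (helper201).  Definitions: `SV/Defs.lean` (helper154).  MAIN RESULT: `RsvFrame.good`.

PROOF.  (1) `RsvLocal.good`: if `γ [a,b]` lies in one parametrisation `ψ`: transport the end data to `ψ` (`rsvEnd_trans`), apply `R316.SvData` (`Pack017`) to `S = rgeo g ψ U`, `X σ = φ σ • Yc σ`,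
`ra p = β'a p - c a - X a p`, `rb` likewise; `rdist² ≤ (b-a) energy` (`SV/Len.lean`).
(2) `RsvGood.trans`: choose any end data at the intermediate point `γ m` (`exists_rsvEnd`), add the two energies; the boundary terms at `m` cancel IDENTICALLY; `(√(x u) + √(y v))² ≤ (x + y)(u + v)`.
(3) `rsv_interval_induction`: local + additive ⟹ global.
-/

set_option autoImplicit false
set_option linter.unusedSectionVars false
open scoped ContDiff Topology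
open Set Claims.C0499 Claimed.Agent.R315
open Claimed.Agent.R316 (RGeo SvData svEn svDen svF svFd svF_left svF_right)

namespace Claimed.Agent.R314

variable {V : Type} [NormedAddCommGroup V] [NormedSpace ℝ V] [FiniteDimensional ℝ V]
variable {P : Type} [NormedAddCommGroup P] [NormedSpace ℝ P] [FiniteDimensional ℝ P]
variable {n : ℕ} {X : Set V} {g : Ten V}

/-- representation of `γ` and `Y` on `Ioo s₀ s₁` in ONE parametrisation. -/
structure RsvLocal (n : ℕ) (X : Set V) (g : Ten V) (γ : ℝ → V) (Y : ℝ → P →L[ℝ] V)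
    (ψ : E n → V) (U : Set (E n)) (c : ℝ → E n) (Yc : ℝ → P →L[ℝ] E n) (s₀ s₁ : ℝ) : Prop where
  param : IsParam X ψ U
  geod : (rgeo g ψ U).IsGeod c (Ioo s₀ s₁)
  pt : ∀ σ ∈ Ioo s₀ s₁, ψ (c σ) = γ σ
  vel : ∀ σ ∈ Ioo s₀ s₁, fderiv ℝ ψ (c σ) (deriv c σ) = deriv γ σ
  unit : ∀ σ ∈ Ioo s₀ s₁, (rgeo g ψ U).G (c σ) (deriv c σ) (deriv c σ) = 1
  smooth : ContDiffOn ℝ ∞ Yc (Ioo s₀ s₁)
  frame : ∀ σ ∈ Ioo s₀ s₁, ∀ p, fderiv ℝ ψ (c σ) (Yc σ p) = Y σ p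
  par : ∀ p, (rgeo g ψ U).IsParallel c (fun σ => Yc σ p) (Ioo s₀ s₁)

variable {γ : ℝ → V} {Y : ℝ → P →L[ℝ] V} {φ : ℝ → ℝ} {t₀ t₁ : ℝ}

/-! ### one parametrisation -/

section local_

/-- the derivative of a smooth local left inverse inverts `dψ`. -/
theorem rsv_fderiv_leftInverse {ψ : E n → V} {U : Set (E n)} (hp : IsParam X ψ U)
    {O : Set V} {ρ : V → E n} (hO : IsOpen O) (hρ : ContDiffOn ℝ ∞ ρ O)
    (hinv : ∀ x ∈ X ∩ O, x ∈ ψ '' U ∧ ρ x = Function.invFunOn ψ U x) {z : E n} (hz : z ∈ U)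
    (hzO : ψ z ∈ O) (v : E n) : fderiv ℝ ρ (ψ z) (fderiv ℝ ψ z v) = v := by
  have dψ : DifferentiableAt ℝ ψ z := if_differentiableAt hp hz
  have dρ : DifferentiableAt ℝ ρ (ψ z) :=
    (hρ.contDiffAt (hO.mem_nhds hzO)).differentiableAt (by simp)
  have h1 : (ρ ∘ ψ) =ᶠ[𝓝 z] id := by
    filter_upwards [(if_open hp).mem_nhds hz, dψ.continuousAt.eventually (hO.mem_nhds hzO)] with w hw hwO
    show ρ (ψ w) = w
    rw [(hinv (ψ w) ⟨if_mem hp hw, hwO⟩).2, if_leftInv hp hw]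
  have h2 := (dρ.hasFDerivAt.comp z dψ.hasFDerivAt).fderiv
  rw [h1.fderiv_eq, fderiv_id] at h2
  have h3 := congrArg (fun T : E n →L[ℝ] E n => T v) h2
  simpa using h3.symm

theorem RsvFrame.exists_local (hM : IsMfd n X) (F : RsvFrame n X g γ Y t₀ t₁) {t : ℝ}
    (ht : t ∈ Ioo t₀ t₁) :
    ∃ δ > 0, Ioo (t - δ) (t + δ) ⊆ Ioo t₀ t₁ ∧
      ∃ (ψ : E n → V) (U : Set (E n)) (c : ℝ → E n) (Yc : ℝ → P →L[ℝ] E n),
        RsvLocal n X g γ Y ψ U c Yc (t - δ) (t + δ) := by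
  have hx : γ t ∈ X := F.geod.2.1 t ht
  obtain ⟨ψ, U, hp, z, hz, hzx⟩ := hM _ hx
  obtain ⟨ρ, O, hO, hzO, hρ, -, hinv⟩ := if_exists_retr hp hz
  rw [hzx] at hzO
  have hcont : ContinuousAt γ t := (F.geod.1.contDiffAt (isOpen_Ioo.mem_nhds ht)).continuousAt
  have hnhds : Ioo t₀ t₁ ∩ γ ⁻¹' O ∈ 𝓝 t :=
    Filter.inter_mem (isOpen_Ioo.mem_nhds ht) (hcont.preimage_mem_nhds (hO.mem_nhds hzO))
  obtain ⟨δ, hδ, hball⟩ := Metric.mem_nhds_iff.1 hnhds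
  rw [Real.ball_eq_Ioo] at hball
  have hI : Ioo (t - δ) (t + δ) ⊆ Ioo t₀ t₁ := fun σ hσ => (hball hσ).1
  have hγO : ∀ σ ∈ Ioo (t - δ) (t + δ), γ σ ∈ O := fun σ hσ => (hball hσ).2
  have hγM : ∀ σ ∈ Ioo (t - δ) (t + δ), γ σ ∈ X := fun σ hσ => F.geod.2.1 σ (hI hσ)
  have hc : ∀ σ ∈ Ioo (t - δ) (t + δ), ρ (γ σ) ∈ U ∧ ψ (ρ (γ σ)) = γ σ := by
    intro σ hσ
    obtain ⟨h1, h2⟩ := hinv (γ σ) ⟨hγM σ hσ, hγO σ hσ⟩
    rw [h2]
    exact ⟨Function.invFunOn_mem h1, Function.invFunOn_eq h1⟩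
  have hgeod := F.geod.2.2 _ _ hp (fun σ => ρ (γ σ)) _ hI isOpen_Ioo hc
  have hfr : ∀ σ ∈ Ioo (t - δ) (t + δ), ∀ p,
      fderiv ℝ ψ (ρ (γ σ)) (fderiv ℝ ρ (γ σ) (Y σ p)) = Y σ p := by
    intro σ hσ p
    have h1 := (F.par p).2.1 σ (hI hσ)
    rw [← (hc σ hσ).2] at h1
    obtain ⟨v, hv⟩ := (if_tan_iff hp (hc σ hσ).1).1 h1
    have h2 := rsv_fderiv_leftInverse hp hO hρ hinv (hc σ hσ).1
      (by rw [(hc σ hσ).2]; exact hγO σ hσ) v
    rw [(hc σ hσ).2] at h2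
    simp only at hv
    rw [hv, h2]
  have hvel : ∀ σ ∈ Ioo (t - δ) (t + δ),
      fderiv ℝ ψ (ρ (γ σ)) (deriv (fun σ => ρ (γ σ)) σ) = deriv γ σ := by
    intro σ hσ
    have hn := isOpen_Ioo.mem_nhds hσ
    have d1 : DifferentiableAt ℝ (fun σ => ρ (γ σ)) σ :=
      (hgeod.1.contDiffAt hn).differentiableAt (by simp)
    have d2 : DifferentiableAt ℝ ψ (ρ (γ σ)) := if_differentiableAt hp (hc σ hσ).1
    have h1 : γ =ᶠ[𝓝 σ] fun s => ψ (ρ (γ s)) := by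
      filter_upwards [hn] with s hs
      exact (hc s hs).2.symm
    rw [h1.deriv_eq]
    exact (d2.hasFDerivAt.comp_hasDerivAt σ d1.hasDerivAt).deriv.symm
  refine ⟨δ, hδ, hI, ψ, U, fun σ => ρ (γ σ), fun σ => (fderiv ℝ ρ (γ σ)).comp (Y σ), ?_⟩
  refine
    { param := hp
      geod := hgeod
      pt := fun σ hσ => (hc σ hσ).2
      vel := hvel
      unit := fun σ hσ => ?_
      smooth := ?_
      frame := hfr
      par := fun p => ?_ }
  · show if_bil (cm g ψ (ρ (γ σ))) _ _ = 1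
    rw [if_cm_bil, hvel σ hσ, (hc σ hσ).2]
    exact F.unit σ (hI hσ)
  · have h1 : ContDiffOn ℝ ∞ (fderiv ℝ ρ) O := hρ.fderiv_of_isOpen hO (by simp)
    exact (h1.comp (F.geod.1.mono hI) hγO).clm_comp (F.smooth.mono hI)
  · exact (F.par p).2.2 _ _ hp (fun σ => ρ (γ σ)) _ _ hI isOpen_Ioo
      fun σ hσ => ⟨(hc σ hσ).1, (hc σ hσ).2, hfr σ hσ p⟩

section loc
variable {ψ : E n → V} {U : Set (E n)} {c : ℝ → E n} {Yc : ℝ → P →L[ℝ] E n} {s₀ s₁ : ℝ}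

theorem RsvLocal.riem (hg : IsMetricOn n X g) (L : RsvLocal n X g γ Y ψ U c Yc s₀ s₁) :
    (rgeo g ψ U).IsRiem := rgeo_isRiem hg L.param

theorem RsvLocal.memU (L : RsvLocal n X g γ Y ψ U c Yc s₀ s₁) {σ : ℝ} (hσ : σ ∈ Ioo s₀ s₁) :
    c σ ∈ U := L.geod.2.1 σ hσ

/-- the metric in the parametrisation is the ambient one. -/
theorem RsvLocal.G_amb (L : RsvLocal n X g γ Y ψ U c Yc s₀ s₁) {σ : ℝ}
    (hσ : σ ∈ Ioo s₀ s₁) (u v : E n) :
    (rgeo g ψ U).G (c σ) u v = g (γ σ) (fderiv ℝ ψ (c σ) u) (fderiv ℝ ψ (c σ) v) := by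
  rw [← L.pt σ hσ]
  exact if_cm_bil g ψ (c σ) u v

theorem RsvLocal.inj (L : RsvLocal n X g γ Y ψ U c Yc s₀ s₁) {σ : ℝ} (hσ : σ ∈ Ioo s₀ s₁) :
    Function.Injective (fderiv ℝ ψ (c σ)) := if_imm L.param (L.memU hσ)

/-- derivatives of the data. -/
theorem RsvLocal.diff (L : RsvLocal n X g γ Y ψ U c Yc s₀ s₁) (p : P) {σ : ℝ}
    (hσ : σ ∈ Ioo s₀ s₁) :
    DifferentiableAt ℝ c σ ∧ DifferentiableAt ℝ (deriv c) σ ∧
      DifferentiableAt ℝ (fun s => Yc s p) σ := by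
  have hn : Ioo s₀ s₁ ∈ 𝓝 σ := isOpen_Ioo.mem_nhds hσ
  have d1 : ContDiffOn ℝ ∞ (deriv c) (Ioo s₀ s₁) :=
    L.geod.1.deriv_of_isOpen isOpen_Ioo (by simp)
  have h2 : ContDiffOn ℝ ∞ (fun s : ℝ => Yc s p) (Ioo s₀ s₁) :=
    L.smooth.clm_apply contDiffOn_const
  exact ⟨(L.geod.1.contDiffAt hn).differentiableAt (by simp),
    (d1.contDiffAt hn).differentiableAt (by simp), (h2.contDiffAt hn).differentiableAt (by simp)⟩

/-- the density of the index form in the parametrisation. -/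
theorem RsvLocal.den_eq (hg : IsMetricOn n X g) (L : RsvLocal n X g γ Y ψ U c Yc s₀ s₁) (p : P)
    {σ : ℝ} (hσ : σ ∈ Ioo s₀ s₁) :
    rsvDen n X g γ Y φ p σ = deriv φ σ ^ 2 * (rgeo g ψ U).G (c σ) (Yc σ p) (Yc σ p) -
      φ σ ^ 2 * (rgeo g ψ U).secNum (c σ) (Yc σ p) (deriv c σ) := by
  unfold rsvDen
  rw [L.G_amb hσ, L.frame σ hσ, ← secA_eq hg L.param (L.memU hσ), L.pt σ hσ, L.frame σ hσ,
    L.vel σ hσ]

/-- smoothness of the density. -/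
theorem RsvLocal.contDiffOn_den (hg : IsMetricOn n X g) (L : RsvLocal n X g γ Y ψ U c Yc s₀ s₁)
    (hφ : ContDiff ℝ ∞ φ) (p : P) :
    ContDiffOn ℝ ∞ (fun σ => deriv φ σ ^ 2 * (rgeo g ψ U).G (c σ) (Yc σ p) (Yc σ p) -
      φ σ ^ 2 * (rgeo g ψ U).secNum (c σ) (Yc σ p) (deriv c σ)) (Ioo s₀ s₁) := by
  have hS := L.riem hg
  have d1 : ContDiffOn ℝ ∞ (deriv c) (Ioo s₀ s₁) :=
    L.geod.1.deriv_of_isOpen isOpen_Ioo (by simp)
  have h2 : ContDiffOn ℝ ∞ (fun s : ℝ => Yc s p) (Ioo s₀ s₁) :=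
    L.smooth.clm_apply contDiffOn_const
  have h3 : ContDiffOn ℝ ∞ (fun σ => (rgeo g ψ U).secNum (c σ) (Yc σ p) (deriv c σ)) (Ioo s₀ s₁) :=
    hS.contDiffOn_G_comp le_rfl L.geod.1 L.geod.2.1
      (hS.contDiffOn_curv_comp L.geod.1 L.geod.2.1 h2 d1 d1) h2
  have h4 : ContDiffOn ℝ ∞ (fun σ => (rgeo g ψ U).G (c σ) (Yc σ p) (Yc σ p)) (Ioo s₀ s₁) :=
    hS.contDiffOn_G_comp le_rfl L.geod.1 L.geod.2.1 h2 h2
  have h5 : ContDiff ℝ ∞ (deriv φ) := by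
    have := (contDiff_infty_iff_deriv.1 hφ).2
    exact this
  exact ((h5.contDiffOn.pow 2).mul h4).sub ((hφ.contDiffOn.pow 2).mul h3)

/-- covariant derivative of the variation field. -/
theorem RsvLocal.covD_field (L : RsvLocal n X g γ Y ψ U c Yc s₀ s₁) (hφ : ContDiff ℝ ∞ φ) (p : P)
    {σ : ℝ} (hσ : σ ∈ Ioo s₀ s₁) :
    (rgeo g ψ U).covD c (fun s => (φ s • Yc s) p) σ = deriv φ σ • Yc σ p := by
  obtain ⟨-, -, d3⟩ := L.diff p hσ
  have h1 := (rgeo g ψ U).covD_smul (c := c) (hφ.differentiable (by simp) σ) d3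
  have h2 : (fun s => (φ s • Yc s) p) = fun s => φ s • Yc s p := by
    funext s; simp
  rw [h2, h1, L.par p σ hσ, smul_zero, add_zero]

/-- transport of end data to the parametrisation of `RsvLocal`, in the form needed by `SvData`. -/
theorem RsvLocal.end_data (hg : IsMetricOn n X g) (L : RsvLocal n X g γ Y ψ U c Yc s₀ s₁) {t : ℝ}
    (ht : t ∈ Ioo s₀ s₁) {ψa : E n → V} {Ua : Set (E n)} {βa : P → E n} (r₀ : ℝ)
    (ea : RsvEnd X ψa Ua βa (γ t) (r₀ • Y t)) :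
    ∃ (r : P → E n) (N : Set P), IsOpen N ∧ (0 : P) ∈ N ∧ ContDiffOn ℝ ∞ r N ∧ r 0 = 0 ∧
      fderiv ℝ r 0 = 0 ∧ (∀ p ∈ N, ψ (c t + (r₀ • Yc t) p + r p) = ψa (βa p)) ∧
      ∀ p, g (γ t) (deriv γ t) (rsvAcc g ψa βa p) =
        (rgeo g ψ U).G (c t) (fderiv ℝ (fderiv ℝ r) 0 p p +
          (rgeo g ψ U).Γ (c t) ((r₀ • Yc t) p) ((r₀ • Yc t) p)) (deriv c t) := by
  have hS := L.riem hg
  have hx : γ t ∈ ψ '' U := ⟨c t, L.memU ht, L.pt t ht⟩
  obtain ⟨N, hN, h0, hs, hmem, hvel, hacc⟩ := rsvEnd_trans hg ea L.param hx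
  have hinv : Function.invFunOn ψ U (γ t) = c t := by
    rw [← L.pt t ht]
    exact if_leftInv L.param (L.memU ht)
  have hb0 : Function.invFunOn ψ U (ψa (βa 0)) = c t := by rw [ea.base, hinv]
  have hd : fderiv ℝ (fun p => Function.invFunOn ψ U (ψa (βa p))) 0 = r₀ • Yc t := by
    ext1 p
    apply L.inj ht
    have h1 := hvel p
    rw [hinv] at h1
    rw [h1]
    simp [L.frame t ht]
  have hdiff : ∀ q ∈ N, fderiv ℝ (fun p => Function.invFunOn ψ U (ψa (βa p)) - c t - (r₀ • Yc t) p) q =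
      fderiv ℝ (fun p => Function.invFunOn ψ U (ψa (βa p))) q - r₀ • Yc t := by
    intro q hq
    have h1 : DifferentiableAt ℝ (fun p => Function.invFunOn ψ U (ψa (βa p))) q :=
      (hs.contDiffAt (hN.mem_nhds hq)).differentiableAt (by simp)
    have h2 := (h1.hasFDerivAt.sub_const (c t)).sub (r₀ • Yc t).hasFDerivAt
    exact h2.fderiv
  have hdd : fderiv ℝ (fderiv ℝ
      (fun p => Function.invFunOn ψ U (ψa (βa p)) - c t - (r₀ • Yc t) p)) 0 =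
      fderiv ℝ (fderiv ℝ (fun p => Function.invFunOn ψ U (ψa (βa p)))) 0 := by
    have h1 : fderiv ℝ (fun p => Function.invFunOn ψ U (ψa (βa p)) - c t - (r₀ • Yc t) p) =ᶠ[𝓝 0]
        fun q => fderiv ℝ (fun p => Function.invFunOn ψ U (ψa (βa p))) q - r₀ • Yc t := by
      filter_upwards [hN.mem_nhds h0] with q hq
      exact hdiff q hq
    rw [h1.fderiv_eq, fderiv_sub_const]
  refine ⟨fun p => Function.invFunOn ψ U (ψa (βa p)) - c t - (r₀ • Yc t) p, N, hN, h0,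
    (hs.sub contDiffOn_const).sub (r₀ • Yc t).contDiff.contDiffOn, by simp [hb0], ?_, ?_, ?_⟩
  · rw [hdiff 0 h0, hd, sub_self]
  · intro p hp
    rw [← (hmem p hp).2.2]
    congr 1
    simp only [sub_sub, add_sub_cancel]
  · intro p
    rw [hdd, ← hacc p, rsvAcc, hd, hb0, ← L.vel t ht, ← L.G_amb ht, hS.G_symm _ (L.memU ht)]
    rfl

theorem RsvLocal.G_field (hg : IsMetricOn n X g) (L : RsvLocal n X g γ Y ψ U c Yc s₀ s₁) (r₀ : ℝ)
    (p : P) {t : ℝ} (ht : t ∈ Ioo s₀ s₁) :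
    (rgeo g ψ U).G (c t) ((r₀ • Yc t) p) (deriv c t) = r₀ * g (γ t) (deriv γ t) (Y t p) := by
  rw [(L.riem hg).G_symm _ (L.memU ht), smul_apply, map_smul, smul_eq_mul,
    L.G_amb ht, L.vel t ht, L.frame t ht]

theorem RsvLocal.good (hg : IsMetricOn n X g) (L : RsvLocal n X g γ Y ψ U c Yc s₀ s₁)
    (hφ : ContDiff ℝ ∞ φ) {a b : ℝ} (ha : s₀ < a) (hab : a < b) (hb : b < s₁) :
    RsvGood n X g γ Y φ a b := by
  have hS := L.riem hg
  have hsubI : Icc a b ⊆ Ioo s₀ s₁ := fun x hx => ⟨ha.trans_le hx.1, hx.2.trans_lt hb⟩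
  have hsub : uIcc a b ⊆ Ioo s₀ s₁ := by
    rw [uIcc_of_le hab.le]
    exact hsubI
  have haI : a ∈ Ioo s₀ s₁ := hsub left_mem_uIcc
  have hbI : b ∈ Ioo s₀ s₁ := hsub right_mem_uIcc
  refine ⟨fun p => ?_, ?_⟩
  · exact (((L.contDiffOn_den hg hφ p).continuousOn.mono hsub).congr
      fun σ hσ => L.den_eq hg p (hsub hσ)).intervalIntegrable
  · intro ψa ψb Ua Ub βa βb ea eb
    obtain ⟨ra, Na, oa, za, ca, ra0, dra0, pa, acca⟩ := L.end_data hg haI (φ a) ea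
    obtain ⟨rb, Nb, ob, zb, cb, rb0, drb0, pb, accb⟩ := L.end_data hg hbI (φ b) eb
    have D : SvData (rgeo g ψ U) c (fun σ => φ σ • Yc σ) ra rb (Na ∩ Nb) s₀ s₁ a b :=
      { riem := hS, geod := L.geod, hX := hφ.contDiffOn.smul L.smooth, ht₀ := ha, hab := hab,
        ht₁ := hb, hN := oa.inter ob, h0 := ⟨za, zb⟩, hra := ca.mono inter_subset_left,
        hrb := cb.mono inter_subset_right, ra0 := ra0, rb0 := rb0, dra0 := dra0, drb0 := drb0 }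
    obtain ⟨N', oN', zN', sN', mU, cden, cEn⟩ := D.exists_nhds
    refine ⟨svEn (rgeo g ψ U) c (fun σ => φ σ • Yc σ) ra rb a b, N', oN', zN', cEn, ?_, ?_, ?_, ?_⟩
    · intro p hp
      have hnn : ∀ σ ∈ Icc a b,
          0 ≤ svDen (rgeo g ψ U) c (fun σ => φ σ • Yc σ) ra rb a b (σ, p) :=
        fun σ hσ => hS.G_self_nonneg (mU p hp σ hσ) _
      refine ⟨intervalIntegral.integral_nonneg hab.le hnn, ?_⟩
      have hcurve : ContDiffOn ℝ 1 (fun s => svF c (fun σ => φ σ • Yc σ) ra rb a b (s, p))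
          (Ioo s₀ s₁) := (D.contDiffOn_svF_curve p).of_le ENat.LEInfty.out
      have h1 := rsv_rdist_sq_le hg L.param ha hab.le hb hcurve (mU p hp)
      rw [svF_left hab, svF_right hab, pa p (sN' hp).1, pb p (sN' hp).2] at h1
      refine h1.trans (le_of_eq ?_)
      congr 1
      refine intervalIntegral.integral_congr fun t ht => ?_
      rw [uIcc_of_le hab.le] at ht
      rw [(D.hasDerivAt_svF (hsubI ht) p).deriv]
      rfl
    · rw [D.svEn_zero, intervalIntegral.integral_congr (g := fun _ => (1 : ℝ)) (fun σ hσ => by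
        simp only
        rw [L.unit σ (hsub hσ)])]
      simp
    · intro p
      rw [D.fderiv_svEn, L.G_field hg _ p hbI, L.G_field hg _ p haI]
    · intro p
      have h1 : ∫ σ in a..b, ((rgeo g ψ U).G (c σ)
          ((rgeo g ψ U).covD c (fun s => (fun σ => φ σ • Yc σ) s p) σ)
          ((rgeo g ψ U).covD c (fun s => (fun σ => φ σ • Yc σ) s p) σ) -
          (rgeo g ψ U).secNum (c σ) ((fun σ => φ σ • Yc σ) σ p) (deriv c σ)) =
          rsvIdx n X g γ Y φ a b p := by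
        unfold rsvIdx
        refine intervalIntegral.integral_congr fun σ hσ => ?_
        simp only
        rw [L.covD_field hφ p (hsub hσ), L.den_eq hg p (hsub hσ)]
        simp only [map_smul, smul_apply, smul_eq_mul]
        rw [RGeo.secNum_smul_left]
        ring
      rw [D.fderiv2_svEn, h1, acca, accb]

end loc
end local_

/-! ### concatenation, and the main theorem -/

section chain

theorem RsvGood.trans (h : CM n X g) (F : RsvFrame n X g γ Y t₀ t₁) {a m b : ℝ}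
    (ha : t₀ < a) (ham : a < m) (hmb : m < b) (hb : b < t₁) (h₁ : RsvGood n X g γ Y φ a m)
    (h₂ : RsvGood n X g γ Y φ m b) : RsvGood n X g γ Y φ a b := by
  obtain ⟨i₁, e₁⟩ := h₁
  obtain ⟨i₂, e₂⟩ := h₂
  have hT : IsTenOn n X g := (if_isMetricOn_iff.1 h.met).1
  have hmm : m ∈ Ioo t₀ t₁ := ⟨ha.trans ham, hmb.trans hb⟩
  refine ⟨fun p => (i₁ p).trans (i₂ p), ?_⟩
  intro ψa ψb Ua Ub βa βb ea eb
  have hxm : γ m ∈ X := F.geod.2.1 m hmm
  obtain ⟨ψm, Um, βm, em⟩ := exists_rsvEnd h.mfd hxm (φ m • Y m) (fun p => by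
    simpa using if_tan_smul (φ m) ((F.par p).2.1 m hmm))
  obtain ⟨𝓔₁, N₁, o₁, z₁, c₁, d₁, v₁, f₁, g₁⟩ := e₁ ψa ψm Ua Um βa βm ea em
  obtain ⟨𝓔₂, N₂, o₂, z₂, c₂, d₂, v₂, f₂, g₂⟩ := e₂ ψm ψb Um Ub βm βb em eb
  obtain ⟨Na, oa, za, ma⟩ := ea.eventually_mem
  obtain ⟨Nm, om, zm, mm⟩ := em.eventually_mem
  obtain ⟨Nb, ob, zb, mb⟩ := eb.eventually_mem
  have C₁ : ContDiffAt ℝ 2 𝓔₁ 0 := (c₁.contDiffAt (o₁.mem_nhds z₁)).of_le ENat.LEInfty.out
  have C₂ : ContDiffAt ℝ 2 𝓔₂ 0 := (c₂.contDiffAt (o₂.mem_nhds z₂)).of_le ENat.LEInfty.out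
  obtain ⟨j1, j2⟩ := rsv_fderiv2_add C₁ C₂
  refine ⟨fun p => 𝓔₁ p + 𝓔₂ p, (N₁ ∩ N₂) ∩ (Na ∩ Nm ∩ Nb),
    (o₁.inter o₂).inter ((oa.inter om).inter ob), ⟨⟨z₁, z₂⟩, ⟨za, zm⟩, zb⟩,
    (c₁.mono fun p hp => hp.1.1).add (c₂.mono fun p hp => hp.1.2), ?_, ?_, ?_, ?_⟩
  · rintro p ⟨⟨p1, p2⟩, ⟨pa, pm⟩, pb⟩
    obtain ⟨n1, l1⟩ := d₁ p p1
    obtain ⟨n2, l2⟩ := d₂ p p2
    refine ⟨add_nonneg n1 n2, ?_⟩
    have xa := if_mem ea.param (ma p pa)
    have xm := if_mem em.param (mm p pm)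
    have xb := if_mem eb.param (mb p pb)
    have tri := if_rdist_tri (g := g) h.mfd hT
      (if_join_of_connected h.mfd h.conn.isPreconnected xa xm)
      (if_join_of_connected h.mfd h.conn.isPreconnected xm xb)
    have h3 := rsv_sqrt_add_sq_le (sub_nonneg.2 ham.le) (sub_nonneg.2 hmb.le) n1 n2
      (if_rdist_nonneg X g _ _) (if_rdist_nonneg X g _ _) l1 l2
    have h4 : rdist X g (ψa (βa p)) (ψb (βb p)) ^ 2 ≤
        (rdist X g (ψa (βa p)) (ψm (βm p)) + rdist X g (ψm (βm p)) (ψb (βb p))) ^ 2 :=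
      pow_le_pow_left₀ (if_rdist_nonneg X g _ _) tri 2
    calc _ ≤ _ := h4
      _ ≤ _ := h3
      _ = _ := by ring
  · simp only [v₁, v₂]; ring
  · intro p
    rw [j1, add_apply, f₁, f₂]
    ring
  · intro p
    have hI : rsvIdx n X g γ Y φ a b p = rsvIdx n X g γ Y φ a m p + rsvIdx n X g γ Y φ m b p :=
      (intervalIntegral.integral_add_adjacent_intervals (i₁ p) (i₂ p)).symm
    rw [j2, add_apply, add_apply, g₁, g₂, hI]
    ring

/-- **main theorem of the package.** -/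
theorem RsvFrame.good (h : CM n X g) (F : RsvFrame n X g γ Y t₀ t₁) (hφ : ContDiff ℝ ∞ φ)
    {a b : ℝ} (ha : t₀ < a) (hab : a < b) (hb : b < t₁) : RsvGood n X g γ Y φ a b := by
  refine rsv_interval_induction (Q := RsvGood n X g γ Y φ) hab ?_ ?_
  · intro t ht
    obtain ⟨δ, hδ, -, ψ, U, c, Yc, L⟩ :=
      F.exists_local h.mfd (t := t) ⟨ha.trans_le ht.1, ht.2.trans_lt hb⟩
    exact ⟨δ, hδ, fun s s' h1 h2 h3 _ _ => L.good h.met hφ h1 h2 h3⟩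
  · intro s m s' h1 h2 h3 h4 g1 g2
    exact g1.trans h F (ha.trans_le h1) h2 h3 (h4.trans_lt hb) g2

end chain

end Claimed.Agent.R314
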