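import Claimed.Agent.R314.C.Defs

/-!
# Row 314, block C, package SV (architects helper154, helper201): second variation along a long geodesic.  DEFINITIONS

REAL port of `R316/Base/SV` (there: Kaehler, `SvFrame`, `SvEnd`, `svAcc`, `SvGood`).  Vocabulary: `R314/C/Defs.lean` (`rgeo`, `IsGeo`, `IsPar`, `secA`).  The chart lemma (`SvData`, `svEn`, `fderiv2_svEn`; `R316/Pack017`) is imported, not copied.

DATA.  `γ` a unit speed geodesic of `(X, g)` on `Ioo t₀ t₁`; `P` a finite dimensional real parameter space; `Y σ : P →L[ℝ] V` a smooth family of linear maps such that `σ ↦ Y σ p` is parallel along `γ`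
for every `p` (`RsvFrame`); `φ : ℝ → ℝ` smooth.  The variation field is `φ(σ) Y σ p`.

END DATA (`RsvEnd`).  A smooth family of points through `x`, given in ONE parametrisation: `p ↦ ψ (β p)`, with first order part `dψ (Dβ(0) p) = Z p`.
Its covariant acceleration is the ambient tangent vector `rsvAcc g ψ β p = dψ (D²β(0)(p,p) + Γ(Dβ p, Dβ p))`.

MAIN RESULT (`RsvFrame.good`, file `SV/Chain.lean`, helper201): for `t₀ < a < b < t₁` the statement `RsvGood … a b` holds:  for ALL end data at `γ a` and `γ b` (first order parts `φ(a) Y a`, `φ(b) Y b`)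
there is a function `𝓔`, smooth near `0`, with
`rdist (ψa (βa p)) (ψb (βb p))² ≤ (b - a) 𝓔 p`, `𝓔 0 = b - a`, `D𝓔(0) p = 2 [φ ⟨γ', Y p⟩]_a^b`, `D²𝓔(0)(p,p) = 2 rsvIdx p + 2 [⟨γ', rsvAcc⟩]_a^b`,
`rsvIdx p = ∫_a^b φ'² |Y p|² - φ² Rm(Y p, γ', γ', Y p)`  (the index form of `φ Y p`; `|Y p|` is constant, but this is not built in: the form is additive in the interval as it stands).
No sorry in this file.
-/

set_option autoImplicit false
open scoped ContDiff Topology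
open Set Claims.C0499 Claimed.Agent.R315

namespace Claimed.Agent.R314

variable {V : Type} [NormedAddCommGroup V] [NormedSpace ℝ V]
variable {P : Type} [NormedAddCommGroup P] [NormedSpace ℝ P]

/-- a unit speed geodesic with a smooth linear family of parallel fields. -/
structure RsvFrame (n : ℕ) (X : Set V) (g : Ten V) (γ : ℝ → V) (Y : ℝ → P →L[ℝ] V) (t₀ t₁ : ℝ) : Prop where
  geod : IsGeo n X g γ (Ioo t₀ t₁)
  unit : ∀ σ ∈ Ioo t₀ t₁, g (γ σ) (deriv γ σ) (deriv γ σ) = 1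
  smooth : ContDiffOn ℝ ∞ Y (Ioo t₀ t₁)
  par : ∀ p, IsPar n X g γ (fun σ => Y σ p) (Ioo t₀ t₁)

/-- end data: the smooth family of points `p ↦ ψ (β p)` through `x` with first order part `Z`. -/
structure RsvEnd {n : ℕ} (X : Set V) (ψ : E n → V) (U : Set (E n)) (β : P → E n) (x : V) (Z : P →L[ℝ] V) : Prop where
  param : IsParam X ψ U
  smooth : ContDiff ℝ ∞ β
  mem : β 0 ∈ U
  base : ψ (β 0) = x
  vel : ∀ p, fderiv ℝ ψ (β 0) (fderiv ℝ β 0 p) = Z p

/-- covariant acceleration at `0` of the family of points `p ↦ ψ (β p)` in the direction `p` (an ambient tangent vector). -/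
noncomputable def rsvAcc {n : ℕ} (g : Ten V) (ψ : E n → V) (β : P → E n) (p : P) : V :=
  fderiv ℝ ψ (β 0)
    (fderiv ℝ (fderiv ℝ β) 0 p p + if_Gam (cm g ψ) (β 0) (fderiv ℝ β 0 p) (fderiv ℝ β 0 p))

/-- the density of the index form of the field `φ Y p`. -/
noncomputable def rsvDen (n : ℕ) (X : Set V) (g : Ten V) (γ : ℝ → V) (Y : ℝ → P →L[ℝ] V) (φ : ℝ → ℝ) (p : P) (σ : ℝ) : ℝ :=
  deriv φ σ ^ 2 * g (γ σ) (Y σ p) (Y σ p) - φ σ ^ 2 * secA n X g (γ σ) (Y σ p) (deriv γ σ)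

/-- the index form of the field `φ Y p` on `[a,b]`. -/
noncomputable def rsvIdx (n : ℕ) (X : Set V) (g : Ten V) (γ : ℝ → V) (Y : ℝ → P →L[ℝ] V) (φ : ℝ → ℝ) (a b : ℝ) (p : P) : ℝ :=
  ∫ σ in a..b, rsvDen n X g γ Y φ p σ

/-- the statement proved for every interval `[a,b]` (see the header). -/
def RsvGood (n : ℕ) (X : Set V) (g : Ten V) (γ : ℝ → V) (Y : ℝ → P →L[ℝ] V) (φ : ℝ → ℝ) (a b : ℝ) : Prop :=
  (∀ p, IntervalIntegrable (rsvDen n X g γ Y φ p) MeasureTheory.volume a b) ∧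
  ∀ (ψa ψb : E n → V) (Ua Ub : Set (E n)) (βa βb : P → E n),
    RsvEnd X ψa Ua βa (γ a) (φ a • Y a) → RsvEnd X ψb Ub βb (γ b) (φ b • Y b) →
    ∃ (𝓔 : P → ℝ) (N : Set P), IsOpen N ∧ (0 : P) ∈ N ∧ ContDiffOn ℝ ∞ 𝓔 N ∧
      (∀ p ∈ N, 0 ≤ 𝓔 p ∧ rdist X g (ψa (βa p)) (ψb (βb p)) ^ 2 ≤ (b - a) * 𝓔 p) ∧
      𝓔 0 = b - a ∧
      (∀ p, fderiv ℝ 𝓔 0 p = 2 * (φ b * g (γ b) (deriv γ b) (Y b p) - φ a * g (γ a) (deriv γ a) (Y a p))) ∧
      ∀ p, fderiv ℝ (fderiv ℝ 𝓔) 0 p p = 2 * rsvIdx n X g γ Y φ a b p +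
        2 * g (γ b) (deriv γ b) (rsvAcc g ψb βb p) - 2 * g (γ a) (deriv γ a) (rsvAcc g ψa βa p)

end Claimed.Agent.R314
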