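import Claimed.Agent.R314.SV.Defs
import Claimed.Agent.R316.Pack017

/-!
# Row 314, block C, package SV (second variation), file 1: end data of trial families

Real port of `R316/Base/SV/Chain.lean`, sections 1-3 (architect helper201).

END DATA (`RsvEnd`, `rsvAcc`: defined in `SV/Defs.lean`).  A smooth family of points of `X` through `x`, given in ONE parametrisation: `p ↦ ψ (β p)`, `p` in a finite dimensional
parameter space `P`, with first order part `dψ (Dβ(0) p) = Y p`.  Its covariant acceleration is the ambient tangent vector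
`rsvAcc g ψ β p = dψ (D²β(0)(p,p) + Γ(Dβ p, Dβ p))`.  `rsvEnd_trans`: end data can be transported to every other parametrisation around `x`, with the same
first order part and the same covariant acceleration (`if_PullC.conn`).
-/

set_option autoImplicit false
set_option linter.unusedSectionVars false
open scoped ContDiff Topology
open Set Claims.C0499 Claimed.Agent.R315

namespace Claimed.Agent.R314

variable {V : Type} [NormedAddCommGroup V] [NormedSpace ℝ V] [FiniteDimensional ℝ V]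
variable {P : Type} [NormedAddCommGroup P] [NormedSpace ℝ P] [FiniteDimensional ℝ P]
variable {n : ℕ} {X : Set V} {g : Ten V}

/-! ### elementary tools -/

/-- local + additive ⟹ global. -/
theorem rsv_interval_induction {Q : ℝ → ℝ → Prop} {a b : ℝ} (hab : a < b)
    (hloc : ∀ t ∈ Set.Icc a b, ∃ δ > 0, ∀ s s' : ℝ, t - δ < s → s < s' → s' < t + δ → a ≤ s → s' ≤ b →
      Q s s')
    (hadd : ∀ s m s' : ℝ, a ≤ s → s < m → m < s' → s' ≤ b → Q s m → Q m s' → Q s s') : Q a b := by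
  choose! δ hδ hQ using hloc
  obtain ⟨η, hη, hleb⟩ := lebesgue_number_lemma_of_metric
    (c := fun t : Set.Icc a b => Set.Ioo ((t : ℝ) - δ t) ((t : ℝ) + δ t)) isCompact_Icc
    (fun _ => isOpen_Ioo) (fun t ht => Set.mem_iUnion.2 ⟨⟨t, ht⟩, by
      have := hδ t ht
      constructor <;> simp <;> linarith⟩)
  have small : ∀ s s' : ℝ, a ≤ s → s < s' → s' ≤ b → s' - s < η → Q s s' := by
    intro s s' h1 h2 h3 h4
    obtain ⟨t, ht⟩ := hleb s ⟨h1, (h2.trans_le h3).le⟩
    have m1 : s ∈ Metric.ball s η := Metric.mem_ball_self hη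
    have m2 : s' ∈ Metric.ball s η := by
      rw [Metric.mem_ball, Real.dist_eq, abs_of_pos (sub_pos.2 h2)]
      exact h4
    exact hQ t t.2 s s' (ht m1).1 h2 (ht m2).2 h1 h3
  have ind : ∀ n : ℕ, ∀ s s' : ℝ, a ≤ s → s < s' → s' ≤ b → s' - s < n * (η / 2) → Q s s' := by
    intro n
    induction n with
    | zero =>
      intro s s' _ h2 _ h4
      simp at h4
      linarith
    | succ n ih =>
      intro s s' h1 h2 h3 h4
      by_cases hs : s' - s < η
      · exact small s s' h1 h2 h3 hs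
      · rw [not_lt] at hs
        push_cast at h4
        refine hadd s (s + η / 2) s' h1 (by linarith) (by linarith) h3
          (small _ _ h1 (by linarith) (by linarith) (by linarith))
          (ih _ _ (by linarith) (by linarith) h3 (by linarith))
  obtain ⟨n, hn⟩ := exists_nat_gt ((b - a) / (η / 2))
  refine ind n a b le_rfl hab le_rfl ?_
  rwa [div_lt_iff₀ (by positivity)] at hn

theorem rsv_sqrt_add_sq_le {x y u v d₁ d₂ : ℝ} (hx : 0 ≤ x) (hy : 0 ≤ y) (hu : 0 ≤ u) (hv : 0 ≤ v)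
    (hd₁ : 0 ≤ d₁) (hd₂ : 0 ≤ d₂) (h₁ : d₁ ^ 2 ≤ x * u) (h₂ : d₂ ^ 2 ≤ y * v) :
    (d₁ + d₂) ^ 2 ≤ (x + y) * (u + v) := by
  have h3 : (d₁ * d₂) ^ 2 ≤ ((x * v + y * u) / 2) ^ 2 := by
    have h4 : d₁ ^ 2 * d₂ ^ 2 ≤ (x * u) * (y * v) :=
      mul_le_mul h₁ h₂ (sq_nonneg _) (mul_nonneg hx hu)
    nlinarith [sq_nonneg (x * v - y * u)]
  have h5 : d₁ * d₂ ≤ (x * v + y * u) / 2 :=
    (pow_le_pow_iff_left₀ (mul_nonneg hd₁ hd₂) (by positivity) two_ne_zero).1 h3
  nlinarith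

/-- a linear family of tangent vectors has linear coordinates. -/
theorem rsv_exists_lift {ψ : E n → V} {U : Set (E n)} (hψ : IsParam X ψ U) {z : E n} (hz : z ∈ U)
    (Y : P →L[ℝ] V) (hY : ∀ p, Y p ∈ if_Tan n X (ψ z)) :
    ∃ L : P →L[ℝ] E n, ∀ p, fderiv ℝ ψ z (L p) = Y p := by
  obtain ⟨P₀, hP₀⟩ := LinearMap.exists_leftInverse_of_injective
    (fderiv ℝ ψ z : E n →ₗ[ℝ] V) (LinearMap.ker_eq_bot.2 (if_imm hψ hz))
  have hP : ∀ v, (LinearMap.toContinuousLinearMap P₀) (fderiv ℝ ψ z v) = v := fun v =>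
    LinearMap.congr_fun hP₀ v
  refine ⟨(LinearMap.toContinuousLinearMap P₀).comp Y, fun p => ?_⟩
  obtain ⟨v, hv⟩ := (if_tan_iff hψ hz).1 (hY p)
  rw [ContinuousLinearMap.comp_apply, hv, hP]

theorem rsv_fderiv_affine (z : E n) (L : P →L[ℝ] E n) (q : P) :
    fderiv ℝ (fun p => z + L p) q = L := by
  rw [fderiv_const_add]
  exact L.fderiv

/-- affine end data. -/
theorem rsvEnd_affine {ψ : E n → V} {U : Set (E n)} (hψ : IsParam X ψ U) {z : E n} (hz : z ∈ U)
    (L : P →L[ℝ] E n) (Y : P →L[ℝ] V) (hL : ∀ p, fderiv ℝ ψ z (L p) = Y p) :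
    RsvEnd X ψ U (fun p => z + L p) (ψ z) Y where
  param := hψ
  smooth := contDiff_const.add L.contDiff
  mem := by simpa using hz
  base := by simp
  vel := fun p => by
    rw [rsv_fderiv_affine]
    simpa using hL p

/-- end data exist. -/
theorem exists_rsvEnd (hM : IsMfd n X) {x : V} (hx : x ∈ X) (Y : P →L[ℝ] V)
    (hY : ∀ p, Y p ∈ if_Tan n X x) :
    ∃ (ψ : E n → V) (U : Set (E n)) (β : P → E n), RsvEnd X ψ U β x Y := by
  obtain ⟨ψ, U, hψ, z, hz, rfl⟩ := hM x hx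
  obtain ⟨L, hL⟩ := rsv_exists_lift hψ hz Y hY
  exact ⟨ψ, U, fun p => z + L p, rsvEnd_affine hψ hz L Y hL⟩

/-- constant end data. -/
theorem rsvEnd_const {ψ : E n → V} {U : Set (E n)} (hψ : IsParam X ψ U) {z : E n} (hz : z ∈ U) :
    RsvEnd X ψ U (fun _ : P => z) (ψ z) 0 where
  param := hψ
  smooth := contDiff_const
  mem := hz
  base := rfl
  vel := fun p => by simp

theorem rsvAcc_const (g : Ten V) (ψ : E n → V) (z : E n) (p : P) :
    rsvAcc g ψ (fun _ : P => z) p = 0 := by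
  have h1 : fderiv ℝ (fun _ : P => z) = fun _ => 0 := by
    funext q
    simp
  simp [rsvAcc, h1]

theorem rsvAcc_affine (g : Ten V) (ψ : E n → V) (z : E n) (L : P →L[ℝ] E n) (p : P) :
    rsvAcc g ψ (fun p => z + L p) p = fderiv ℝ ψ z (if_Gam (cm g ψ) z (L p) (L p)) := by
  have h1 : fderiv ℝ (fun p => z + L p) = fun _ => L := by
    funext q
    exact rsv_fderiv_affine z L q
  simp [rsvAcc, h1]

/-- the points of the family lie in the domain of the parametrisation (near `0`). -/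
theorem RsvEnd.eventually_mem {ψ : E n → V} {U : Set (E n)} {β : P → E n} {x : V} {Y : P →L[ℝ] V}
    (e : RsvEnd X ψ U β x Y) : ∃ N : Set P, IsOpen N ∧ (0 : P) ∈ N ∧ ∀ p ∈ N, β p ∈ U :=
  ⟨β ⁻¹' U, (if_open e.param).preimage e.smooth.continuous, e.mem, fun _ hp => hp⟩

/-! ### change of parametrisation of end data -/

/-- 2-jet of a composition. -/
theorem rsv_fderiv2_comp {A B C : Type} [NormedAddCommGroup A] [NormedSpace ℝ A]
    [NormedAddCommGroup B] [NormedSpace ℝ B] [NormedAddCommGroup C] [NormedSpace ℝ C]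
    {g : B → C} {f : A → B} {x : A} (hg : ContDiffAt ℝ 2 g (f x)) (hf : ContDiffAt ℝ 2 f x) (p : A) :
    fderiv ℝ (fun q => g (f q)) x p = fderiv ℝ g (f x) (fderiv ℝ f x p) ∧
    fderiv ℝ (fderiv ℝ (fun q => g (f q))) x p p =
      fderiv ℝ (fderiv ℝ g) (f x) (fderiv ℝ f x p) (fderiv ℝ f x p) +
        fderiv ℝ g (f x) (fderiv ℝ (fderiv ℝ f) x p p) := by
  have ef : ∀ᶠ y in 𝓝 x, DifferentiableAt ℝ f y :=
    (hf.eventually (by simp)).mono fun _ h => h.differentiableAt (by norm_num)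
  have eg : ∀ᶠ y in 𝓝 x, DifferentiableAt ℝ g (f y) :=
    hf.continuousAt.eventually
      ((hg.eventually (by simp)).mono fun _ h => h.differentiableAt (by norm_num))
  have h1 : (fderiv ℝ fun q => g (f q)) =ᶠ[𝓝 x] fun y => (fderiv ℝ g (f y)).comp (fderiv ℝ f y) := by
    filter_upwards [ef, eg] with y h1 h2
    exact (h2.hasFDerivAt.comp y h1.hasFDerivAt).fderiv
  have dg : HasFDerivAt (fderiv ℝ g) (fderiv ℝ (fderiv ℝ g) (f x)) (f x) :=
    ((hg.fderiv_right (m := 1) (by norm_num)).differentiableAt (by norm_num)).hasFDerivAt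
  have df : HasFDerivAt (fderiv ℝ f) (fderiv ℝ (fderiv ℝ f) x) x :=
    ((hf.fderiv_right (m := 1) (by norm_num)).differentiableAt (by norm_num)).hasFDerivAt
  have dc := dg.comp x ef.self_of_nhds.hasFDerivAt
  have h2 := dc.clm_comp df
  constructor
  · rw [h1.self_of_nhds]; rfl
  · have h2' : fderiv ℝ (fun y => (fderiv ℝ g (f y)).comp (fderiv ℝ f y)) x = _ := h2.fderiv
    rw [h1.fderiv_eq, h2']
    simp [add_comm]

/-- 2-jet of a sum. -/
theorem rsv_fderiv2_add {f g : P → ℝ} {x : P} (hf : ContDiffAt ℝ 2 f x) (hg : ContDiffAt ℝ 2 g x) :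
    fderiv ℝ (fun p => f p + g p) x = fderiv ℝ f x + fderiv ℝ g x ∧
      fderiv ℝ (fderiv ℝ fun p => f p + g p) x =
        fderiv ℝ (fderiv ℝ f) x + fderiv ℝ (fderiv ℝ g) x := by
  have ef : ∀ᶠ y in 𝓝 x, DifferentiableAt ℝ f y :=
    (hf.eventually (by simp)).mono fun _ h => h.differentiableAt (by norm_num)
  have eg : ∀ᶠ y in 𝓝 x, DifferentiableAt ℝ g y :=
    (hg.eventually (by simp)).mono fun _ h => h.differentiableAt (by norm_num)
  have h1 : (fderiv ℝ fun p => f p + g p) =ᶠ[𝓝 x] fun y => fderiv ℝ f y + fderiv ℝ g y := by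
    filter_upwards [ef, eg] with y h1 h2
    exact fderiv_fun_add h1 h2
  refine ⟨h1.self_of_nhds, ?_⟩
  rw [h1.fderiv_eq]
  exact fderiv_fun_add ((hf.fderiv_right (m := 1) (by norm_num)).differentiableAt (by norm_num))
    ((hg.fderiv_right (m := 1) (by norm_num)).differentiableAt (by norm_num))

theorem rsvEnd_trans (hg : IsMetricOn n X g) {ψ χ : E n → V} {U W : Set (E n)} {β : P → E n} {x : V}
    {Y : P →L[ℝ] V} (e : RsvEnd X ψ U β x Y) (hχ : IsParam X χ W) (hx : x ∈ χ '' W) :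
    ∃ N : Set P, IsOpen N ∧ (0 : P) ∈ N ∧
      ContDiffOn ℝ ∞ (fun p => Function.invFunOn χ W (ψ (β p))) N ∧
      (∀ p ∈ N, β p ∈ U ∧ Function.invFunOn χ W (ψ (β p)) ∈ W ∧
        χ (Function.invFunOn χ W (ψ (β p))) = ψ (β p)) ∧
      (∀ p, fderiv ℝ χ (Function.invFunOn χ W x)
        (fderiv ℝ (fun p => Function.invFunOn χ W (ψ (β p))) 0 p) = Y p) ∧
      ∀ p, rsvAcc g χ (fun p => Function.invFunOn χ W (ψ (β p))) p = rsvAcc g ψ β p := by
  have hψ := e.param
  have hov := if_isOpen_trDom hψ hχ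
  have h0 : β 0 ∈ if_trDom ψ U χ W := ⟨e.mem, by
    show ψ (β 0) ∈ χ '' W
    rw [e.base]; exact hx⟩
  have hτ : ContDiffAt ℝ 2 (if_tr χ W ψ) (β 0) :=
    (if_tr_contDiffAt hψ hχ h0).of_le ENat.LEInfty.out
  have hβ : ContDiffAt ℝ 2 β 0 := e.smooth.contDiffAt.of_le ENat.LEInfty.out
  have hre : ∀ v, fderiv ℝ ψ (β 0) v = fderiv ℝ χ (if_tr χ W ψ (β 0))
      (fderiv ℝ (if_tr χ W ψ) (β 0) v) := fun v => by
    rw [if_fderiv_eq hψ hχ h0]
    rfl
  have hbase : if_tr χ W ψ (β 0) = Function.invFunOn χ W x := by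
    show Function.invFunOn χ W (ψ (β 0)) = _
    rw [e.base]
  refine ⟨β ⁻¹' (if_trDom ψ U χ W), hov.preimage e.smooth.continuous, h0,
    (if_tr_contDiffOn hψ hχ).comp e.smooth.contDiffOn (fun p hp => hp),
    fun p hp => ⟨hp.1, if_tr_mem hp, if_tr_spec hp⟩, fun p => ?_, fun p => ?_⟩
  · have h1 := (rsv_fderiv2_comp hτ hβ p).1
    have h1' : fderiv ℝ (fun p => Function.invFunOn χ W (ψ (β p))) 0 p = _ := h1
    rw [h1', ← hbase, ← hre, e.vel]
  · obtain ⟨h1, h2⟩ := rsv_fderiv2_comp hτ hβ p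
    have h1' : fderiv ℝ (fun p => Function.invFunOn χ W (ψ (β p))) 0 p = _ := h1
    have h2' : fderiv ℝ (fderiv ℝ (fun p => Function.invFunOn χ W (ψ (β p)))) 0 p p = _ := h2
    have h3 := (if_pullC hg hψ hχ).conn h0 (fderiv ℝ β 0 p) (fderiv ℝ β 0 p)
    unfold rsvAcc
    rw [h1', h2', hre, map_add (fderiv ℝ (if_tr χ W ψ) (β 0)), h3]
    show fderiv ℝ χ (if_tr χ W ψ (β 0)) _ = _
    congr 1
    abel

end Claimed.Agent.R314
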