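import Claimed.Agent.R314.SV.End

/-!
# Row 314, block C, package SV, file 2: distance ≤ length ≤ √((b-a)·energy) for a curve in one parametrisation

`rsv_rdist_le_integral` : `f : ℝ → E n` of class `C¹` on an open interval containing `[a,b]`, with values in `U` on `[a,b]`:
`rdist X g (ψ (f a)) (ψ (f b)) ≤ ∫_a^b √(G_{f t}(f' t, f' t)) dt`.
(real analogue of `R316.hdist_le_integral_param`; architect + prover helper201.)
-/

set_option autoImplicit false
set_option linter.unusedSectionVars false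
open scoped ContDiff Topology
open Set Claims.C0499 Claimed.Agent.R315

namespace Claimed.Agent.R314

variable {V : Type} [NormedAddCommGroup V] [NormedSpace ℝ V] [FiniteDimensional ℝ V]
variable {n : ℕ} {X : Set V} {g : Ten V}

theorem rsv_rdist_le_integral (hg : IsTenOn n X g) {ψ : E n → V} {U : Set (E n)}
    (hψ : IsParam X ψ U) {s₀ s₁ a b : ℝ} (h0 : s₀ < a) (hab : a ≤ b) (h1 : b < s₁) {f : ℝ → E n}
    (hf : ContDiffOn ℝ 1 f (Ioo s₀ s₁)) (hU : ∀ t ∈ Icc a b, f t ∈ U) :
    rdist X g (ψ (f a)) (ψ (f b)) ≤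
      ∫ t in a..b, Real.sqrt (if_bil (cm g ψ (f t)) (deriv f t) (deriv f t)) := by
  have hsub : Icc a b ⊆ Ioo s₀ s₁ := fun x hx => ⟨h0.trans_le hx.1, hx.2.trans_lt h1⟩
  have hfa : ∀ t ∈ Icc a b, ContDiffAt ℝ 1 f t := fun t ht =>
    hf.contDiffAt (isOpen_Ioo.mem_nhds (hsub ht))
  have hm : ∀ t, if_aff a b t ∈ Icc a b := fun t => if_aff_mem hab t
  -- the global curve in the parameter domain
  have hγ : ContDiff ℝ 1 (fun t => f (if_aff a b t)) := by
    rw [contDiff_iff_contDiffAt]
    intro t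
    exact (hfa _ (hm t)).comp t (if_aff_contDiff a b).contDiffAt
  have hadm : if_Adm X (ψ ∘ fun t => f (if_aff a b t)) :=
    if_adm_of_param hψ hγ fun t => hU _ (hm t)
  have hle := if_rdist_le' hadm g (x := ψ (f a)) (y := ψ (f b))
    (by simp [if_aff_zero]) (by simp [if_aff_one])
  refine hle.trans (le_of_eq ?_)
  unfold if_len
  -- the integrand
  have hF : ContinuousOn (fun s => Real.sqrt (if_bil (cm g ψ (f s)) (deriv f s) (deriv f s)))
      (Icc a b) := by
    have c1 : ContinuousOn f (Icc a b) := hf.continuousOn.mono hsub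
    have c2 : ContinuousOn (deriv f) (Icc a b) :=
      (hf.continuousOn_deriv_of_isOpen isOpen_Ioo le_rfl).mono hsub
    have c3 : ContinuousOn (fun s => if_bil (cm g ψ (f s)) (deriv f s) (deriv f s)) (Icc a b) := by
      simp only [if_bil_apply]
      refine continuousOn_finsetSum _ fun i _ => continuousOn_finsetSum _ fun j _ => ?_
      have c4 : ContinuousOn (fun s => cm g ψ (f s) i j) (Icc a b) :=
        ((hg ψ U hψ i j).continuousOn).comp c1 hU
      have c5 : ∀ k : Fin n, ContinuousOn (fun s => deriv f s k) (Icc a b) := fun k =>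
        (EuclideanSpace.proj (𝕜 := ℝ) k).continuous.comp_continuousOn c2
      exact c4.mul ((c5 i).mul (c5 j))
    exact c3.sqrt
  have hd : ∀ t, DifferentiableAt ℝ (if_aff a b) t :=
    (if_aff_contDiff a b).differentiable (by simp)
  have key : ∀ t, if_speed g (ψ ∘ fun t => f (if_aff a b t)) t =
      (fun s => Real.sqrt (if_bil (cm g ψ (f s)) (deriv f s) (deriv f s))) (if_aff a b t) *
        deriv (if_aff a b) t := by
    intro t
    rw [if_speed_param g hψ (hγ.differentiable (by simp) t) (hU _ (hm t))]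
    have e1 : deriv (fun t => f (if_aff a b t)) t = deriv (if_aff a b) t • deriv f (if_aff a b t) :=
      (((hfa _ (hm t)).differentiableAt (by simp)).hasDerivAt.scomp t (hd t).hasDerivAt).deriv
    have hn : 0 ≤ deriv (if_aff a b) t := by
      rw [if_aff_deriv]
      exact mul_nonneg (by linarith) (if_st_deriv_nonneg t)
    rw [e1]
    simp only [map_smul, smul_apply, smul_eq_mul]
    rw [← mul_assoc, ← sq, Real.sqrt_mul (sq_nonneg _), Real.sqrt_sq hn, mul_comm]
  rw [intervalIntegral.integral_congr (g := fun t =>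
    (fun s => Real.sqrt (if_bil (cm g ψ (f s)) (deriv f s) (deriv f s))) (if_aff a b t) *
        deriv (if_aff a b) t) fun t _ => key t]
  have := intervalIntegral.integral_comp_mul_deriv'' (a := 0) (b := 1) (f := if_aff a b)
    (f' := deriv (if_aff a b))
    (g := fun s => Real.sqrt (if_bil (cm g ψ (f s)) (deriv f s) (deriv f s)))
    (if_aff_contDiff a b).continuous.continuousOn
    (fun x _ => (hd x).hasDerivAt.hasDerivWithinAt)
    ((if_aff_contDiff a b).continuous_deriv le_rfl).continuousOn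
    (hF.mono (by rintro _ ⟨t, -, rfl⟩; exact hm t))
  rw [if_aff_zero, if_aff_one] at this
  exact this

/-- distance² ≤ (b-a)·energy. -/
theorem rsv_rdist_sq_le (hg : IsMetricOn n X g) {ψ : E n → V} {U : Set (E n)}
    (hψ : IsParam X ψ U) {s₀ s₁ a b : ℝ} (h0 : s₀ < a) (hab : a ≤ b) (h1 : b < s₁) {f : ℝ → E n}
    (hf : ContDiffOn ℝ 1 f (Ioo s₀ s₁)) (hU : ∀ t ∈ Icc a b, f t ∈ U) :
    rdist X g (ψ (f a)) (ψ (f b)) ^ 2 ≤
      (b - a) * ∫ t in a..b, if_bil (cm g ψ (f t)) (deriv f t) (deriv f t) := by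
  have hsub : Icc a b ⊆ Ioo s₀ s₁ := fun x hx => ⟨h0.trans_le hx.1, hx.2.trans_lt h1⟩
  have hT : IsTenOn n X g := (if_isMetricOn_iff.1 hg).1
  have c3 : ContinuousOn (fun s => if_bil (cm g ψ (f s)) (deriv f s) (deriv f s)) (Icc a b) := by
    have c1 : ContinuousOn f (Icc a b) := hf.continuousOn.mono hsub
    have c2 : ContinuousOn (deriv f) (Icc a b) :=
      (hf.continuousOn_deriv_of_isOpen isOpen_Ioo le_rfl).mono hsub
    simp only [if_bil_apply]
    refine continuousOn_finsetSum _ fun i _ => continuousOn_finsetSum _ fun j _ => ?_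
    have c4 : ContinuousOn (fun s => cm g ψ (f s) i j) (Icc a b) :=
      ((hT ψ U hψ i j).continuousOn).comp c1 hU
    have c5 : ∀ k : Fin n, ContinuousOn (fun s => deriv f s k) (Icc a b) := fun k =>
      (EuclideanSpace.proj (𝕜 := ℝ) k).continuous.comp_continuousOn c2
    exact c4.mul ((c5 i).mul (c5 j))
  have hnn : ∀ t ∈ Icc a b, 0 ≤ if_bil (cm g ψ (f t)) (deriv f t) (deriv f t) := fun t ht =>
    if_bil_nonneg ((hg ψ U hψ).2 _ (hU t ht)).posSemidef _
  calc rdist X g (ψ (f a)) (ψ (f b)) ^ 2 ≤ _ :=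
        pow_le_pow_left₀ (if_rdist_nonneg _ _ _ _) (rsv_rdist_le_integral hT hψ h0 hab h1 hf hU) 2
    _ ≤ _ := R316.sv_sq_integral_sqrt_le hab c3 hnn

end Claimed.Agent.R314
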